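import Vale.Agent.P148.R2.H990.Vis

open Set Metric Topology

namespace Vale.Agent.P148.R2.H990

variable {P : Set ℂ}

theorem mem_vcell_self {v : ℂ} : v ∈ vcell P v := fun w _ => by
  rw [dist_self]; exact dist_nonneg

/-- `P` has a point within `ρ` of every point of `Z`. -/
def Net (P Z : Set ℂ) (ρ : ℝ) : Prop := ∀ z ∈ Z, ∃ w ∈ P, dist z w ≤ ρ

theorem Net.mono {Z Z' : Set ℂ} {ρ ρ' : ℝ} (h : Net P Z ρ) (hZ : Z' ⊆ Z) (hρ : ρ ≤ ρ') :
    Net P Z' ρ' := fun z hz => by
  obtain ⟨w, hw, h1⟩ := h z (hZ hz)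
  exact ⟨w, hw, h1.trans hρ⟩

theorem Net.dist_le {Z : Set ℂ} {ρ : ℝ} (h : Net P Z ρ) {z v : ℂ} (hz : z ∈ Z)
    (hv : z ∈ vcell P v) : dist z v ≤ ρ := by
  obtain ⟨w, hw, h1⟩ := h z hz
  exact (hv w hw).trans h1

/-- A cell near which the process is dense is small. -/
theorem vcell_subset_closedBall {ρ : ℝ} {v : ℂ} (h : Net P (closedBall v (ρ + ρ)) ρ) (hρ : 0 < ρ) :
    vcell P v ⊆ closedBall v ρ := by
  intro z hz
  by_contra hcon
  rw [mem_closedBall, not_le] at hcon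
  set d := dist z v with hd
  have hd0 : 0 < d := hρ.trans hcon
  set t : ℝ := min ((ρ + ρ) / d) 1 with ht
  have ht0 : 0 ≤ t := le_min (by positivity) zero_le_one
  have ht1 : t ≤ 1 := min_le_right _ _
  set y : ℂ := v + (t : ℂ) * (z - v) with hy
  have hyc : y ∈ vcell P v := by
    have hc := convex_vcell P v
    have h1 := hc (mem_vcell_self (P := P) (v := v)) hz (sub_nonneg.2 ht1) ht0 (by ring)
    have e : y = (1 - t) • v + t • z := by
      rw [hy, Complex.real_smul, Complex.real_smul]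
      push_cast
      ring
    rw [e]
    exact h1
  have hyd : dist y v = t * d := by
    rw [hy, Complex.dist_eq, hd, Complex.dist_eq, add_sub_cancel_left, norm_mul,
      Complex.norm_real, Real.norm_of_nonneg ht0]
  have hyb : y ∈ closedBall v (ρ + ρ) := by
    rw [mem_closedBall, hyd]
    calc t * d ≤ (ρ + ρ) / d * d := by gcongr; exact min_le_left _ _
      _ = ρ + ρ := by field_simp
  have h2 := h.dist_le hyb hyc
  rw [hyd] at h2
  have h3 : ρ < t * d := by
    rcases le_total ((ρ + ρ) / d) 1 with h | h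
    · rw [ht, min_eq_left h]
      have : (ρ + ρ) / d * d = ρ + ρ := by field_simp
      rw [this]
      linarith
    · rw [ht, min_eq_right h, one_mul]
      exact hcon
  linarith

/-- The relation between two cells which meet inside `K`. -/
def Meet (P K : Set ℂ) (B : Set ℂ) (a b : ℂ) : Prop :=
  a ∈ B ∧ b ∈ B ∧ (vcell P a ∩ vcell P b ∩ K).Nonempty

/-- A preconnected set covered by finitely many cells gives chains of cells. -/
theorem chain_of_conn {K B : Set ℂ} (hK : IsPreconnected K) (hB : K ⊆ ⋃ v ∈ B, vcell P v)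
    (hfin : {v ∈ B | (vcell P v ∩ K).Nonempty}.Finite) {u w : ℂ} (hu : u ∈ B) (hw : w ∈ B)
    (huK : (vcell P u ∩ K).Nonempty) (hwK : (vcell P w ∩ K).Nonempty) :
    Relation.ReflTransGen (Meet P K B) u w := by
  by_contra hcon
  set W : Set ℂ := {v ∈ B | (vcell P v ∩ K).Nonempty} with hW
  set U1 : Set ℂ := {a ∈ W | Relation.ReflTransGen (Meet P K B) u a} with hU1
  set U2 : Set ℂ := {a ∈ W | ¬ Relation.ReflTransGen (Meet P K B) u a} with hU2
  have hcl : ∀ U : Set ℂ, U ⊆ W → IsClosed (⋃ a ∈ U, vcell P a) := fun U hU =>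
    (hfin.subset hU).isClosed_biUnion fun a _ => isClosed_vcell P a
  rw [isPreconnected_closed_iff] at hK
  have hcov : K ⊆ (⋃ a ∈ U1, vcell P a) ∪ ⋃ a ∈ U2, vcell P a := by
    intro z hz
    obtain ⟨v, hv, hzv⟩ := mem_iUnion₂.1 (hB hz)
    by_cases h : Relation.ReflTransGen (Meet P K B) u v
    · exact Or.inl (mem_biUnion (show v ∈ U1 from ⟨⟨hv, z, hzv, hz⟩, h⟩) hzv)
    · exact Or.inr (mem_biUnion (show v ∈ U2 from ⟨⟨hv, z, hzv, hz⟩, h⟩) hzv)
  have hu1 : u ∈ U1 := ⟨⟨hu, huK⟩, Relation.ReflTransGen.refl⟩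
  have hw2 : w ∈ U2 := ⟨⟨hw, hwK⟩, hcon⟩
  obtain ⟨z, hz, hz1, hz2⟩ := hK _ _ (hcl U1 fun a h => h.1) (hcl U2 fun a h => h.1) hcov
    (by
      obtain ⟨z, hz, hzK⟩ := huK
      exact ⟨z, hzK, mem_biUnion hu1 hz⟩)
    (by
      obtain ⟨z, hz, hzK⟩ := hwK
      exact ⟨z, hzK, mem_biUnion hw2 hz⟩)
  obtain ⟨a, ha, haz⟩ := mem_iUnion₂.1 hz1
  obtain ⟨b, hb, hbz⟩ := mem_iUnion₂.1 hz2
  exact hb.2 (ha.2.tail ⟨ha.1.1, hb.1.1, z, ⟨haz, hbz⟩, hz⟩)

/-- The union of the cells along a chain is connected. -/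
theorem conn_of_chain {R : ℂ → ℂ → Prop} (hR : ∀ a b, R a b → (vcell P a ∩ vcell P b).Nonempty)
    {u w : ℂ} (h : Relation.ReflTransGen R u w) :
    ∃ K : Set ℂ, IsConnected K ∧ vcell P u ⊆ K ∧ vcell P w ⊆ K ∧
      K ⊆ ⋃ v ∈ {v | Relation.ReflTransGen R u v ∧ Relation.ReflTransGen R v w}, vcell P v := by
  induction h using Relation.ReflTransGen.head_induction_on with
  | refl =>
    refine ⟨vcell P w, ⟨⟨w, mem_vcell_self⟩, (convex_vcell P w).isPreconnected⟩, subset_rfl,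
      subset_rfl, ?_⟩
    exact subset_biUnion_of_mem (u := fun v => vcell P v)
      (show w ∈ {v | Relation.ReflTransGen R w v ∧ Relation.ReflTransGen R v w} from
        ⟨Relation.ReflTransGen.refl, Relation.ReflTransGen.refl⟩)
  | head hab hbw ih =>
    rename_i a b
    obtain ⟨K, hK, h1, h2, h3⟩ := ih
    refine ⟨vcell P a ∪ K, ?_, subset_union_left, h2.trans subset_union_right, ?_⟩
    · refine IsConnected.union ?_ ⟨⟨a, mem_vcell_self⟩, (convex_vcell P a).isPreconnected⟩ hK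
      obtain ⟨z, hz1, hz2⟩ := hR a b hab
      exact ⟨z, hz1, h1 hz2⟩
    · refine union_subset ?_ (h3.trans ?_)
      · exact subset_biUnion_of_mem (u := fun v => vcell P v)
          (show a ∈ {v | Relation.ReflTransGen R a v ∧ Relation.ReflTransGen R v w} from
            ⟨Relation.ReflTransGen.refl, Relation.ReflTransGen.head hab hbw⟩)
      · refine biUnion_subset_biUnion_left ?_
        rintro v ⟨hv1, hv2⟩
        exact ⟨Relation.ReflTransGen.head hab hv1, hv2⟩

/-- Locality of the cells. -/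
theorem mem_vcell_congr {P' : Set ℂ} {z v : ℂ} {ρ : ℝ} (hv : dist z v ≤ ρ)
    (h : P ∩ closedBall z ρ = P' ∩ closedBall z ρ) : z ∈ vcell P v ↔ z ∈ vcell P' v := by
  have key : ∀ Q Q' : Set ℂ, Q ∩ closedBall z ρ = Q' ∩ closedBall z ρ → z ∈ vcell Q v →
      z ∈ vcell Q' v := by
    intro Q Q' hQ hz w hw
    by_cases hwz : dist z w ≤ ρ
    · have : w ∈ Q ∩ closedBall z ρ := by
        rw [hQ]
        exact ⟨hw, by rw [mem_closedBall, dist_comm]; exact hwz⟩
      exact hz w this.1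
    · exact hv.trans (not_le.1 hwz).le
  exact ⟨key P P' h, key P' P h.symm⟩

/-- Locality of the cells, when the process has a point near `z`. -/
theorem mem_vcell_iff_of_net {P' : Set ℂ} {z : ℂ} {ρ : ℝ} (hz : ∃ w ∈ P, dist z w ≤ ρ)
    (h : P ∩ closedBall z ρ = P' ∩ closedBall z ρ) (v : ℂ) :
    z ∈ vcell P v ↔ z ∈ vcell P' v := by
  by_cases hv : dist z v ≤ ρ
  · exact mem_vcell_congr hv h
  · obtain ⟨w, hw, hwz⟩ := hz
    have hw' : w ∈ P' := by
      have : w ∈ P ∩ closedBall z ρ := ⟨hw, by rw [mem_closedBall, dist_comm]; exact hwz⟩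
      rw [h] at this
      exact this.1
    constructor
    · intro hzv
      exact absurd ((hzv w hw).trans hwz) hv
    · intro hzv
      exact absurd ((hzv w hw').trans hwz) hv

end Vale.Agent.P148.R2.H990
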