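import Vale.Agent.P148.R2.H990.X13

/-!
# P148, module X: `XStmt` from the discrete domains of the perturbed quads
-/

open MeasureTheory Set Metric Topology Filter ProbabilityTheory
open scoped ENNReal NNReal

namespace Vale.Agent.P148.R2.H990

open _root_.P148
open Vale.Agent.P148.R2.H592 (nbr vcell QDom arcQ)
open Vale.Agent.P148.R2.F (Dom Conv qcross whp ArmStmt XStmt)

universe u

/-- The filter on the indices (size of the perturbation, (mesh, configuration)). -/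
abbrev lX : Filter (ℕ × (ℝ × Set Pt)) := (atTop : Filter ℕ).curry whp.{u}

theorem map_snd_curry {α β : Type*} (f : Filter α) [f.NeBot] (g : Filter β) :
    map Prod.snd (f.curry g) = g := by
  ext s
  rw [mem_map]
  constructor
  · intro h
    have h' : ∀ᶠ x in f.curry g, x.2 ∈ s := h
    rw [eventually_curry_iff] at h'
    exact h'.exists.choose_spec
  · intro h
    show ∀ᶠ x in f.curry g, x.2 ∈ s
    rw [eventually_curry_iff]
    exact Eventually.of_forall fun _ => h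

/-- The discrete domains of the perturbed quads exist and converge (helper592). -/
def ConvD : Prop :=
  ∀ (Q : Quad) (P : ℕ → Quad), (P = QA Q ∨ P = QA' Q) → ∀ r1 R1 : ℕ → ℝ, (∀ n, 0 < r1 n) →
    ∃ E : ℕ × (ℝ × Set Pt) → Dom, Conv Q lX.{u} Prod.snd E ∧
      ∀ n, ∀ᶠ m in whp.{u}, ∃ r ρ, r ≤ r1 n ∧ ρ ≤ r1 n ∧
        QDom (P n) r (E (n, m)).X (E (n, m)).b (E (n, m)).O ∧
        Win (E (n, m)).X (pts m.2) (closedBall 0 (R1 n)) ρ

/-- **`XStmt` from the arm bound and the discrete domains.** -/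
theorem xs_of_convD (hArm : ArmStmt.{u}) (hC : ConvD.{u}) : XStmt.{u} := by
  intro Q
  obtain ⟨r1, R1, R, hr1, hX⟩ := xbound hArm Q
  obtain ⟨E, hE, hE'⟩ := hC Q (QA Q) (Or.inl rfl) r1 R1 hr1
  obtain ⟨G, hG, hG'⟩ := hC Q (QA' Q) (Or.inr rfl) r1 R1 hr1
  refine ⟨ℕ × (ℝ × Set Pt), lX.{u}, Prod.snd, E, G, map_snd_curry _ _, hE, hG, R, ?_⟩
  intro η hη δ hδ
  show ∀ᶠ i in (atTop : Filter ℕ).curry whp.{u}, _
  rw [eventually_curry_iff]
  filter_upwards [hX η hη δ hδ] with n hn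
  filter_upwards [hn, hE' n, hG' n] with m hm h1 h2
  obtain ⟨r, ρ, h3, h4, h5, h6⟩ := h1
  obtain ⟨r', ρ', h3', h4', h5', h6'⟩ := h2
  exact ⟨(hm r ρ _ h3 h4 h6).1 h5, (hm r' ρ' _ h3' h4' h6').2 h5'⟩

end Vale.Agent.P148.R2.H990
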