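import Vale.Agent.P148.R2.H990.X4
import Vale.Agent.P148.R2.H847.Qpr

/-!
# P148, module X: the observable is at most the quenched probability of an event of the free
points of the majority colour
-/

open Set Metric

namespace Vale.Agent.P148.R2.H990

open Vale.Agent.P148.R2.H592 Vale.Agent.P148.R2 Vale.Agent.P148.R2.H847

variable {X : Set ℂ} {b : ZMod 3 → ℂ} (h : HullTri X b) {O : ZMod 3 → Set ℂ}
  (hf : Fib X (cmap X O))

/-- The free points of the majority colour. -/
def majF (o : Fc X b × ZMod 3) (σ : CV X O → Bool) : Set ℂ :=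
  {x | x ∈ Gf X O ∧ colOf σ x = σ ((TD h hf).src o)}

/-- The number of colourings with a minority outer dart and a property of the free points of the
majority colour. -/
theorem card_maj_Q [Fintype (CV X O)] {o : Fc X b × ZMod 3} {j : ZMod 3} (ho : OutD h hf o j)
    (Q : Set ℂ → Prop) :
    4 * (Nat.card {σ : CV X O → Bool // (TD h hf).Mi σ o ∧ Q (majF h hf o σ)} : ℝ) =
      2 ^ Fintype.card (CV X O) * qpr (Gf X O) Q := by
  classical
  have hfin : Finite (Free X O) := Finite.of_injective (Sum.inr : Free X O → CV X O)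
    Sum.inr_injective
  have := Fintype.ofFinite (Free X O)
  obtain ⟨h1, i, hi, h2, k, hk, hki, h3⟩ := ho
  have e1 : Nat.card {σ : CV X O → Bool // (TD h hf).Mi σ o ∧ Q (majF h hf o σ)} =
      Nat.card ({a : ZMod 3 → Bool // a i ≠ a j ∧ a k = a i} ×
        {τ : Free X O → Bool // Q {x | ∃ hx : x ∈ Gf X O, τ ⟨x, hx⟩ = true}}) := by
    refine Nat.card_congr ?_
    have hb : ∀ σ : CV X O → Bool, majF h hf o σ =
        {x | ∃ hx : x ∈ Gf X O, (fun y : Free X O => σ (Sum.inr y) == σ (Sum.inl i)) ⟨x, hx⟩
          = true} := by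
      intro σ
      ext x
      constructor
      · rintro ⟨hx, h4⟩
        refine ⟨hx, ?_⟩
        unfold colOf at h4
        rw [cmap_of_free hx.1 hx.2, h2] at h4
        exact beq_iff_eq.2 h4
      · rintro ⟨hx, h4⟩
        refine ⟨hx, ?_⟩
        unfold colOf
        rw [cmap_of_free hx.1 hx.2, h2]
        exact beq_iff_eq.1 h4
    have hmi : ∀ σ : CV X O → Bool, (TD h hf).Mi σ o ↔
        (σ (Sum.inl i) ≠ σ (Sum.inl j) ∧ σ (Sum.inl k) = σ (Sum.inl i)) := by
      intro σ
      unfold H258.Tri.Mi
      rw [h1, h2, h3]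
    have hbb : ∀ a b : Bool, ((a == b) == b) = a := by decide
    have hbb' : ∀ a b : Bool, (!(a == b)) = (a == !b) := by decide
    exact
      { toFun := fun σ => (⟨fun m => σ.1 (Sum.inl m), (hmi σ.1).1 σ.2.1⟩,
          ⟨fun y => σ.1 (Sum.inr y) == σ.1 (Sum.inl i), by rw [← hb]; exact σ.2.2⟩)
        invFun := fun p => ⟨Sum.elim p.1.1 (fun y => p.2.1 y == p.1.1 i), (hmi _).2 p.1.2, by
          rw [hb]
          have e : (fun y : Free X O => (Sum.elim p.1.1 (fun y => p.2.1 y == p.1.1 i) (Sum.inr y) ==
              Sum.elim p.1.1 (fun y => p.2.1 y == p.1.1 i) (Sum.inl i))) = p.2.1 := by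
            funext y
            exact hbb _ _
          rw [e]
          exact p.2.2⟩
        left_inv := fun σ => by
          apply Subtype.ext
          funext v
          cases v with
          | inl m => rfl
          | inr y => exact hbb _ _
        right_inv := fun p => by
          refine Prod.ext rfl ?_
          apply Subtype.ext
          funext y
          exact hbb _ _ }
  rw [e1, Nat.card_prod, ← count_free Q]
  have e2 : Nat.card {a : ZMod 3 → Bool // a i ≠ a j ∧ a k = a i} = 2 := by
    rw [Nat.card_eq_fintype_card, Fintype.card_subtype]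
    exact card_mi3 i j k hi hk hki
  rw [e2]
  unfold qpr
  have e3 : Fintype.card (CV X O) = 3 + (Gf X O).ncard := by
    rw [← Nat.card_eq_fintype_card, Nat.card_sum]
    congr 1
    · rw [Nat.card_eq_fintype_card]; rfl
  rw [e3, pow_add]
  push_cast
  field_simp
  norm_num

/-- **The observable is at most the quenched probability of an event which holds for the free
points of the majority colour whenever `NK = 1`.** -/
theorem HH_le_maj [Fintype (CV X O)] {o : Fc X b × ZMod 3} {j : ZMod 3} (ho : OutD h hf o j)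
    {q : Fc X b × ZMod 3} {Q : Set ℂ → Prop}
    (hQ : ∀ σ : CV X O → Bool, (TD h hf).Mi σ o → (TD h hf).NK σ o q = 1 → Q (majF h hf o σ)) :
    ((TD h hf).HH o q).re ≤ qpr (Gf X O) Q := by
  classical
  have h0 := card_maj_Q h hf ho Q
  have h3 : (0 : ℝ) < 2 ^ Fintype.card (CV X O) := by positivity
  unfold H258.Tri.HH
  have e : (4 : ℂ) / 2 ^ Fintype.card (CV X O) = ((4 / 2 ^ Fintype.card (CV X O) : ℝ) : ℂ) := by
    push_cast
    ring
  rw [e, Complex.re_ofReal_mul, Complex.re_sum]
  have e4 : 4 / 2 ^ Fintype.card (CV X O) *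
      (Nat.card {σ : CV X O → Bool // (TD h hf).Mi σ o ∧ Q (majF h hf o σ)} : ℝ) =
        qpr (Gf X O) Q := by
    rw [div_mul_eq_mul_div, h0]
    field_simp
  rw [← e4]
  refine mul_le_mul_of_nonneg_left ?_ (by positivity)
  rw [← card_eq_sum' (fun σ : CV X O → Bool => (TD h hf).Mi σ o ∧ Q (majF h hf o σ)) _]
  refine Finset.sum_le_sum fun σ _ => ?_
  by_cases hm : (TD h hf).Mi σ o
  · rw [if_pos hm]
    rcases NK_zero_or_one h hf σ o q with e | e
    · rw [e, Complex.zero_re]
      split_ifs <;> norm_num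
    · rw [e, if_pos ⟨hm, hQ σ hm e⟩, Complex.one_re]
  · rw [if_neg hm, Complex.zero_re]
    split_ifs <;> norm_num

end Vale.Agent.P148.R2.H990
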