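import Vale.Agent.P148.R2.H990.X5
import Vale.Agent.P148.R2.H990.X6

/-!
# P148, module X: continuum crossings from paths of cells; paths of cells along a connected set
-/

open Set Metric

namespace Vale.Agent.P148.R2.H990

open Vale.Agent.P148.R2.H592 Vale.Agent.P148.R2 Vale.Agent.P148.R2.H847
open _root_.P148 (sq side Quad)

theorem hvcell_eq (X : Set ℂ) (v : ℂ) : H592.vcell X v = H990.vcell X v := rfl

/-- A path in `W` of the Delaunay graph of `X`. -/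
def WPath (X W : Set ℂ) : ℂ → ℂ → Prop :=
  Relation.ReflTransGen (fun a c => nbr X a c ∧ a ∈ W ∧ c ∈ W)

theorem WPath.mono {X W W' : Set ℂ} (hW : W ⊆ W') {x y : ℂ} (h : WPath X W x y) : WPath X W' x y :=
  Relation.ReflTransGen.mono (fun _ _ (h : nbr X _ _ ∧ _ ∧ _) => ⟨h.1, hW h.2.1, hW h.2.2⟩) _ _ h

theorem WPath.mem {X W : Set ℂ} {x y : ℂ} (h : WPath X W x y) (hx : x ∈ W) : y ∈ W := by
  rcases Relation.ReflTransGen.cases_tail h with h1 | ⟨_, _, h1⟩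
  · rw [h1]; exact hx
  · exact h1.2.2

theorem WPath.symm {X W : Set ℂ} {x y : ℂ} (h : WPath X W x y) : WPath X W y x := by
  unfold WPath at h ⊢
  induction h with
  | refl => exact Relation.ReflTransGen.refl
  | tail _ hbc ih => exact Relation.ReflTransGen.head ⟨nbr_symm hbc.1, hbc.2.2, hbc.2.1⟩ ih

/-- The window `U`: there the finite set `X` is the configuration `Y`, and it is a `ρ`-net. -/
structure Win (X Y U : Set ℂ) (ρ : ℝ) : Prop where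
  fin : X.Finite
  pos : 0 < ρ
  iff : ∀ z ∈ U, z ∈ X ↔ z ∈ Y
  net : Net X U ρ

section

variable {X Y U : Set ℂ} {ρ : ℝ} (hw : Win X Y U ρ)
include hw

theorem Win.cell_small {a : ℂ} (ha : closedBall a (3 * ρ) ⊆ U) : vcell X a ⊆ closedBall a ρ := by
  have hρ := hw.pos
  refine vcell_subset_closedBall (hw.net.mono (fun z hz => ha ?_) le_rfl) hρ
  exact closedBall_subset_closedBall (by linarith) hz

theorem Win.cell_sub {a : ℂ} (ha : closedBall a (3 * ρ) ⊆ U) : vcell X a ⊆ vcell Y a := by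
  have hρ := hw.pos
  intro z hz
  have hza : dist z a ≤ ρ := hw.cell_small ha hz
  refine (mem_vcell_congr hza ?_).1 hz
  have hzU : closedBall z ρ ⊆ U := by
    refine Subset.trans (closedBall_subset_closedBall' ?_) ha
    linarith
  ext x
  constructor
  · rintro ⟨h1, h2⟩; exact ⟨(hw.iff x (hzU h2)).1 h1, h2⟩
  · rintro ⟨h1, h2⟩; exact ⟨(hw.iff x (hzU h2)).2 h1, h2⟩

theorem Win.nbr_of {a c : ℂ} (ha : closedBall a (3 * ρ) ⊆ U) (hc : closedBall c (3 * ρ) ⊆ U)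
    (h : nbr X a c) : nbr Y a c := by
  have hρ := hw.pos
  have m : ∀ a : ℂ, a ∈ closedBall a (3 * ρ) := fun a => mem_closedBall_self (by linarith)
  refine ⟨(hw.iff a (ha (m a))).1 h.1, (hw.iff c (hc (m c))).1 h.2.1, h.2.2.1, ?_⟩
  obtain ⟨z, h1, h2⟩ := h.2.2.2
  exact ⟨z, hw.cell_sub ha h1, hw.cell_sub hc h2⟩

theorem Win.dist_nbr {a c : ℂ} (ha : closedBall a (3 * ρ) ⊆ U) (h : nbr X a c) :
    dist a c ≤ ρ + ρ := by
  have hρ := hw.pos
  obtain ⟨z, h1, h2⟩ := h.2.2.2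
  have h3 : dist z a ≤ ρ := hw.cell_small ha h1
  have h4 : dist z c ≤ ρ := by
    refine hw.net.dist_le (ha ?_) h2
    rw [mem_closedBall]
    linarith
  calc dist a c ≤ dist a z + dist z c := dist_triangle _ _ _
    _ ≤ ρ + ρ := by rw [dist_comm a z]; linarith

theorem Win.wpath {W : Set ℂ} (hW : ∀ a ∈ W, closedBall a (3 * ρ) ⊆ U) {x y : ℂ}
    (h : WPath X W x y) : WPath Y W x y :=
  Relation.ReflTransGen.mono (fun _ _ (h : nbr X _ _ ∧ _ ∧ _) =>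
    ⟨hw.nbr_of (hW _ h.2.1) (hW _ h.2.2) h.1, h.2.1, h.2.2⟩) _ _ h

/-- The union of the cells along a path is a connected compact set. -/
theorem Win.conn {W : Set ℂ} (hWX : W ⊆ X) (hW : ∀ a ∈ W, closedBall a (3 * ρ) ⊆ U) {x y : ℂ}
    (hx : x ∈ W) (h : WPath X W x y) :
    ∃ K : Set ℂ, IsConnected K ∧ IsCompact K ∧ x ∈ K ∧ y ∈ K ∧ K ⊆ ⋃ v ∈ W, vcell Y v ∧
      ∀ z ∈ K, ∃ a ∈ W, z ∈ closedBall a ρ := by
  have hWfin : W.Finite := hw.fin.subset hWX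
  obtain ⟨K, h1, h2, h3, h4⟩ := conn_of_chain (P := X)
    (R := fun a c => nbr X a c ∧ a ∈ W ∧ c ∈ W) (fun a c hac => hac.1.2.2.2) h
  set t : Set ℂ := {v | Relation.ReflTransGen (fun a c => nbr X a c ∧ a ∈ W ∧ c ∈ W) x v ∧
    Relation.ReflTransGen (fun a c => nbr X a c ∧ a ∈ W ∧ c ∈ W) v y} with ht
  have htW : t ⊆ W := fun v hv => WPath.mem hv.1 hx
  set K' : Set ℂ := ⋃ v ∈ t, vcell X v with hK'
  have hK'c : IsCompact K' := by
    refine (hWfin.subset htW).isCompact_biUnion fun v hv => ?_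
    exact (isCompact_closedBall v ρ).of_isClosed_subset (isClosed_vcell X v)
      (hw.cell_small (hW v (htW hv)))
  have hcl : closure K ⊆ K' := closure_minimal h4 hK'c.isClosed
  refine ⟨closure K, h1.closure, hK'c.of_isClosed_subset isClosed_closure hcl,
    subset_closure (h2 mem_vcell_self), subset_closure (h3 mem_vcell_self), ?_, ?_⟩
  · intro z hz
    obtain ⟨v, hv, hzv⟩ := mem_iUnion₂.1 (hcl hz)
    exact mem_biUnion (htW hv) (hw.cell_sub (hW v (htW hv)) hzv)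
  · intro z hz
    obtain ⟨v, hv, hzv⟩ := mem_iUnion₂.1 (hcl hz)
    exact ⟨v, htW hv, hw.cell_small (hW v (htW hv)) hzv⟩

/-- Crossing from bottom to top by a path of cells. -/
theorem Win.cross02 (Q : Quad) {W : Set ℂ} (hWX : W ⊆ X)
    (hW : ∀ a ∈ W, closedBall a (3 * ρ) ⊆ U)
    (hre : ∀ a ∈ W, ∀ z ∈ closedBall a ρ, |(Q.H.symm z).re| ≤ 1) {x y : ℂ} (hx : x ∈ W)
    (h : WPath X W x y) (h1 : 1 ≤ (Q.H.symm x).im) (h2 : (Q.H.symm y).im ≤ -1) :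
    Q.Cross 0 2 (⋃ v ∈ W, vcell Y v) := by
  obtain ⟨K, c1, c2, c3, c4, c5, c6⟩ := hw.conn hWX hW hx h
  refine H990.cross02 Q c1 c2 c5 (fun z hz => ?_) ⟨y, c4, h2⟩ ⟨x, c3, h1⟩
  obtain ⟨a, ha, hza⟩ := c6 z hz
  exact hre a ha z hza

/-- Crossing from left to right by a path of cells. -/
theorem Win.cross13 (Q : Quad) {W : Set ℂ} (hWX : W ⊆ X)
    (hW : ∀ a ∈ W, closedBall a (3 * ρ) ⊆ U)
    (him : ∀ a ∈ W, ∀ z ∈ closedBall a ρ, |(Q.H.symm z).im| ≤ 1) {x y : ℂ} (hx : x ∈ W)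
    (h : WPath X W x y) (h1 : (Q.H.symm x).re ≤ -1) (h2 : 1 ≤ (Q.H.symm y).re) :
    Q.Cross 1 3 (⋃ v ∈ W, vcell Y v) := by
  obtain ⟨K, c1, c2, c3, c4, c5, c6⟩ := hw.conn hWX hW hx h
  refine H990.cross13 Q c1 c2 c5 (fun z hz => ?_) ⟨x, c3, h1⟩ ⟨y, c4, h2⟩
  obtain ⟨a, ha, hza⟩ := c6 z hz
  exact him a ha z hza

end

theorem first_exit {α : Type*} {R : α → α → Prop} {p : α → Prop} {x y : α}
    (h : Relation.ReflTransGen R x y) (hx : p x) (hy : ¬ p y) :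
    ∃ a c, Relation.ReflTransGen (fun a c => R a c ∧ p a ∧ p c) x a ∧ p a ∧ R a c ∧ ¬ p c := by
  by_contra hcon
  push Not at hcon
  have key : Relation.ReflTransGen (fun a c => R a c ∧ p a ∧ p c) x y ∧ p y := by
    clear hy
    induction h with
    | refl => exact ⟨Relation.ReflTransGen.refl, hx⟩
    | tail _ hbc ih =>
      have h1 := hcon _ _ ih.1 ih.2 hbc
      exact ⟨ih.1.tail ⟨hbc, ih.2, h1⟩, h1⟩
  exact hy key.2

variable {X Y U : Set ℂ} {ρ : ℝ} {O : ZMod 3 → Set ℂ}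

theorem covers {X K : Set ℂ} (hX : X.Finite) (hne : X.Nonempty) : K ⊆ ⋃ v ∈ X, vcell X v := by
  intro z _
  obtain ⟨v, hv, hmin⟩ := hX.exists_minimalFor (fun v => dist z v) X hne
  refine mem_biUnion hv fun w hw' => ?_
  rcases le_total (dist z v) (dist z w) with h1 | h1
  · exact h1
  · exact hmin hw' h1

/-- **Paths of free cells along a connected set.** The connected set `κ` starts in the cell of the
free point `p₀` and ends at `z₁`, near which no point is free; at points near `κ` the free points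
have no neighbours outside the free part but the points of `O k`. -/
theorem exists_gamma (hw : Win X Y U ρ) {κ : Set ℂ} (hκ : IsPreconnected κ) (hκU : κ ⊆ U) {p₀ z₁ : ℂ}
    (hp₀ : p₀ ∈ Gf X O) (hp₀κ : (vcell X p₀ ∩ κ).Nonempty) (hz₁κ : z₁ ∈ κ)
    (hz₁ : ∀ x ∈ Gf X O, ρ < dist z₁ x) {k : ZMod 3}
    (harc : ∀ x ∈ Gf X O, ∀ y, nbr X x y → y ∉ Gf X O → (∃ z ∈ κ, dist z y ≤ ρ) → y ∈ O k) :
    ∃ Γ ⊆ Gf X O, p₀ ∈ Γ ∧ (∀ x ∈ Γ, ∃ z ∈ κ, dist z x ≤ ρ) ∧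
      ∃ y w, w ∈ O k ∧ nbr X y w ∧
        Relation.ReflTransGen (fun a c => nbr X a c ∧ a ∈ Γ ∧ c ∈ Γ) p₀ y := by
  have hne : X.Nonempty := ⟨p₀, hp₀.1⟩
  have hcov : κ ⊆ ⋃ v ∈ X, vcell X v := covers hw.fin hne
  obtain ⟨w₁, hw₁X, hw₁⟩ := mem_iUnion₂.1 (hcov hz₁κ)
  have hchain := chain_of_conn (P := X) (B := X) hκ hcov (hw.fin.subset fun v hv => hv.1) hp₀.1 hw₁X
    hp₀κ ⟨z₁, hw₁, hz₁κ⟩
  set Γ : Set ℂ := {a | a ∈ Gf X O ∧ ∃ z ∈ κ, dist z a ≤ ρ} with hΓ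
  have hnear : ∀ {a z : ℂ}, z ∈ κ → z ∈ vcell X a → dist z a ≤ ρ := fun hz hza =>
    hw.net.dist_le (hκU hz) hza
  have hp₀Γ : p₀ ∈ Γ := by
    obtain ⟨z, h1, h2⟩ := hp₀κ
    exact ⟨hp₀, z, h2, hnear h2 h1⟩
  have hw₁Γ : w₁ ∉ Γ := by
    rintro ⟨h1, -⟩
    exact absurd (hnear hz₁κ hw₁) (not_le.2 (hz₁ w₁ h1))
  obtain ⟨a, c, h1, h2, h3, h4⟩ := first_exit (p := fun a => a ∈ Γ) hchain hp₀Γ hw₁Γ
  obtain ⟨h5, h6, z, ⟨h7, h8⟩, h9⟩ := h3
  have hac : a ≠ c := by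
    rintro rfl
    exact h4 h2
  have hcG : c ∉ Gf X O := fun hh => h4 ⟨hh, z, h9, hnear h9 h8⟩
  have hn : nbr X a c := ⟨h5, h6, hac, z, h7, h8⟩
  refine ⟨Γ, fun x hx => hx.1, hp₀Γ, fun x hx => hx.2, a, c,
    harc a h2.1 c hn hcG ⟨z, h9, hnear h9 h8⟩, hn, ?_⟩
  clear h5 h6 h7 h8 h9 hn hcG hac h4 h2
  induction h1 with
  | refl => exact Relation.ReflTransGen.refl
  | tail _ hbc ih =>
    rename_i u v _
    by_cases huv : u = v
    · rw [← huv]; exact ih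
    · obtain ⟨⟨h1, h2, z, ⟨h3, h4⟩, -⟩, h5, h6⟩ := hbc
      exact ih.tail ⟨⟨h1, h2, huv, z, h3, h4⟩, h5, h6⟩

end Vale.Agent.P148.R2.H990
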