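import Vale.Agent.P148.Defs

/-!
# P148, module X: the perturbed quads
-/

open Set Metric Topology Filter

namespace Vale.Agent.P148.R2.H990

open _root_.P148 (sq side corner Quad)

/-- The scaling `x + iy ↦ a x + i b y`. -/
noncomputable def scl (a b : ℝ) (ha : a ≠ 0) (hb : b ≠ 0) : ℂ ≃ₜ ℂ where
  toFun z := ⟨a * z.re, b * z.im⟩
  invFun z := ⟨a⁻¹ * z.re, b⁻¹ * z.im⟩
  left_inv z := by
    apply Complex.ext <;> simp only <;> field_simp
  right_inv z := by
    apply Complex.ext <;> simp only <;> field_simp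
  continuous_toFun := by
    have h : (fun z : ℂ => (⟨a * z.re, b * z.im⟩ : ℂ)) =
        fun z : ℂ => ((a * z.re : ℝ) : ℂ) + ((b * z.im : ℝ) : ℂ) * Complex.I := by
      funext z
      apply Complex.ext <;> simp
    rw [h]
    fun_prop
  continuous_invFun := by
    have h : (fun z : ℂ => (⟨a⁻¹ * z.re, b⁻¹ * z.im⟩ : ℂ)) =
        fun z : ℂ => ((a⁻¹ * z.re : ℝ) : ℂ) + ((b⁻¹ * z.im : ℝ) : ℂ) * Complex.I := by
      funext z
      apply Complex.ext <;> simp
    rw [h]
    fun_prop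

theorem scl_apply {a b : ℝ} (ha : a ≠ 0) (hb : b ≠ 0) (z : ℂ) :
    scl a b ha hb z = ⟨a * z.re, b * z.im⟩ := rfl

/-- The size of the perturbation. -/
noncomputable def sn (n : ℕ) : ℝ := 1 / ((n : ℝ) + 4)

theorem sn_pos (n : ℕ) : 0 < sn n := by unfold sn; positivity

theorem sn_le (n : ℕ) : sn n ≤ 1 / 4 := by
  unfold sn
  have : (0 : ℝ) ≤ n := n.cast_nonneg
  exact one_div_le_one_div_of_le (by norm_num) (by linarith)

theorem tendsto_sn : Tendsto sn atTop (𝓝 0) := by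
  unfold sn
  simp_rw [one_div]
  refine tendsto_inv_atTop_zero.comp ?_
  exact tendsto_atTop_add_const_right _ _ tendsto_natCast_atTop_atTop

theorem sn_ne1 (n : ℕ) : 1 - sn n ≠ 0 := by have := sn_le n; intro h; linarith

theorem sn_ne2 (n : ℕ) : 1 + sn n ≠ 0 := by have := sn_pos n; intro h; linarith

/-- The quad stretched in the vertical direction and shrunk in the horizontal one. -/
noncomputable def QA (Q : Quad) (n : ℕ) : Quad :=
  ⟨(scl (1 - sn n) (1 + sn n) (sn_ne1 n) (sn_ne2 n)).trans Q.H⟩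

/-- The quad stretched in the horizontal direction and shrunk in the vertical one. -/
noncomputable def QA' (Q : Quad) (n : ℕ) : Quad :=
  ⟨(scl (1 + sn n) (1 - sn n) (sn_ne2 n) (sn_ne1 n)).trans Q.H⟩

theorem QA_H (Q : Quad) (n : ℕ) (z : ℂ) :
    (QA Q n).H z = Q.H ⟨(1 - sn n) * z.re, (1 + sn n) * z.im⟩ := rfl

theorem QA'_H (Q : Quad) (n : ℕ) (z : ℂ) :
    (QA' Q n).H z = Q.H ⟨(1 + sn n) * z.re, (1 - sn n) * z.im⟩ := rfl

end Vale.Agent.P148.R2.H990
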