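import Mathlib

open Finsupp

namespace Vale.Agent.P148.R2.H990

variable {V : Type*}

/-- The ends of an edge, as a chain mod 2. -/
noncomputable def ends : Sym2 V → (V →₀ ZMod 2) :=
  Sym2.lift ⟨fun a b => single a 1 + single b 1, fun _ _ => add_comm _ _⟩

/-- The boundary of a chain of edges mod 2. -/
noncomputable def bd1 : (Sym2 V →₀ ZMod 2) →ₗ[ZMod 2] (V →₀ ZMod 2) :=
  Finsupp.linearCombination (ZMod 2) ends

/-- The edge `ab` as a chain. -/
noncomputable def eg (a b : V) : Sym2 V →₀ ZMod 2 := single s(a, b) 1

/-- The boundary of the triangle `abc`. -/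
noncomputable def tri (a b c : V) : Sym2 V →₀ ZMod 2 := eg a b + eg b c + eg a c

theorem eg_comm (a b : V) : eg a b = eg b a := by
  rw [eg, eg, Sym2.eq_swap]

theorem bd1_eg (a b : V) : bd1 (eg a b) = single a 1 + single b 1 := by
  simp [bd1, eg, ends]

theorem add_self2 {M : Type*} [AddCommGroup M] [Module (ZMod 2) M] (x : M) : x + x = 0 := by
  have h : (2 : ZMod 2) • x = x + x := two_smul _ x
  rw [← h, show (2 : ZMod 2) = 0 from rfl, zero_smul]

theorem bd1_tri (a b c : V) : bd1 (tri a b c) = 0 := by
  rw [tri, map_add, map_add, bd1_eg, bd1_eg, bd1_eg]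
  have h : single a (1 : ZMod 2) + single b 1 + (single b 1 + single c 1) + (single a 1 + single c 1)
      = (single a 1 + single a 1) + (single b 1 + single b 1) + (single c 1 + single c 1) := by abel
  rw [h]
  simp only [add_self2]

/-- The span of the boundaries of the faces. -/
noncomputable def bdSpan (Face : V → V → V → Prop) : Submodule (ZMod 2) (Sym2 V →₀ ZMod 2) :=
  Submodule.span (ZMod 2) {x | ∃ a b c, Face a b c ∧ x = tri a b c}

/-- Chains of edges of a graph all whose vertices satisfy `p`. -/
noncomputable def chainsOn (adj : V → V → Prop) (p : V → Prop) :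
    Submodule (ZMod 2) (Sym2 V →₀ ZMod 2) :=
  Submodule.span (ZMod 2) {x | ∃ a b, adj a b ∧ p a ∧ p b ∧ x = eg a b}

theorem bd1_of_mem_bdSpan {Face : V → V → V → Prop} {x : Sym2 V →₀ ZMod 2}
    (hx : x ∈ bdSpan Face) : bd1 x = 0 := by
  have h : bdSpan Face ≤ LinearMap.ker (bd1 (V := V)) := by
    refine Submodule.span_le.2 ?_
    rintro _ ⟨a, b, c, -, rfl⟩
    exact bd1_tri a b c
  exact h hx

theorem bdSpan_mono {F F' : V → V → V → Prop} (h : ∀ a b c, F a b c → F' a b c) :
    bdSpan F ≤ bdSpan F' := by
  refine Submodule.span_mono ?_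
  rintro _ ⟨a, b, c, hf, rfl⟩
  exact ⟨a, b, c, h a b c hf, rfl⟩

theorem bd1_apply_of_mem_chainsOn {adj : V → V → Prop} {p : V → Prop} {v : V} (hv : ¬ p v)
    {x : Sym2 V →₀ ZMod 2} (hx : x ∈ chainsOn adj p) : bd1 x v = 0 := by
  have h : chainsOn adj p ≤ LinearMap.ker ((Finsupp.lapply v).comp (bd1 (V := V))) := by
    refine Submodule.span_le.2 ?_
    rintro _ ⟨a, b, -, ha, hb, rfl⟩
    have ha' : a ≠ v := fun h => hv (h ▸ ha)
    have hb' : b ≠ v := fun h => hv (h ▸ hb)
    simp [bd1_eg, ha', hb']
  exact h hx

/-- **Sweep lemma.** If the vertices are ranked and every lower link is connected through faces,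
then every cycle mod 2 is a sum of boundaries of faces. -/
theorem sweep (adj : V → V → Prop) (hs : ∀ a b, adj a b → adj b a) (hi : ∀ a, ¬ adj a a)
    (Face : V → V → V → Prop) (r : V → ℕ)
    (hr : ∀ a b, (∃ c, adj a c) → (∃ c, adj b c) → r a = r b → a = b)
    (hlink : ∀ v u u', adj v u → adj v u' → r u < r v → r u' < r v →
      Relation.ReflTransGen (fun a b => r a < r v ∧ r b < r v ∧ Face v a b ∧ adj a b) u u') :
    ∀ n : ℕ, ∀ c ∈ chainsOn adj (fun v => r v < n), bd1 c = 0 →
      c ∈ bdSpan (fun a b c => Face a b c ∧ r a < n ∧ r b < n ∧ r c < n) := by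
  intro n
  induction n with
  | zero =>
    intro c hc _
    have h : chainsOn adj (fun v => r v < 0) = ⊥ := by
      rw [chainsOn, Submodule.span_eq_bot]
      rintro _ ⟨a, b, -, ha, -⟩
      exact absurd ha (Nat.not_lt_zero _)
    rw [h, Submodule.mem_bot] at hc
    rw [hc]
    exact Submodule.zero_mem _
  | succ n ih =>
    intro c hc hb
    have hmono : bdSpan (fun a b c => Face a b c ∧ r a < n ∧ r b < n ∧ r c < n) ≤
        bdSpan (fun a b c => Face a b c ∧ r a < n + 1 ∧ r b < n + 1 ∧ r c < n + 1) :=
      bdSpan_mono fun a b c h => ⟨h.1, by omega, by omega, by omega⟩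
    by_cases hv : ∃ v u₀, r v = n ∧ adj v u₀ ∧ r u₀ < n
    · obtain ⟨v, u₀, hvn, hvu, hun⟩ := hv
      set B := bdSpan (fun a b c => Face a b c ∧ r a < n + 1 ∧ r b < n + 1 ∧ r c < n + 1) with hB
      set L := chainsOn adj (fun v => r v < n) with hL
      have key : ∀ u u', Relation.ReflTransGen
          (fun a b => r a < r v ∧ r b < r v ∧ Face v a b ∧ adj a b) u u' →
          eg v u + eg v u' ∈ B ⊔ L := by
        intro u u' h
        induction h with
        | refl => rw [add_self2]; exact Submodule.zero_mem _
        | tail _ hbc ih' =>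
          rename_i b c' _
          obtain ⟨h1, h2, h3, h4⟩ := hbc
          have e1 : eg v u + eg v c' = (eg v u + eg v b) + (tri v b c' + eg b c') := by
            have : (eg v u + eg v b) + (tri v b c' + eg b c')
                = eg v u + eg v c' + (eg v b + eg v b) + (eg b c' + eg b c') := by
              rw [tri]; abel
            rw [this, add_self2, add_self2, add_zero, add_zero]
          rw [e1]
          refine Submodule.add_mem _ ih' (Submodule.add_mem_sup ?_ ?_)
          · exact Submodule.subset_span ⟨v, b, c', ⟨h3, by omega, by omega, by omega⟩, rfl⟩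
          · exact Submodule.subset_span ⟨b, c', h4, by omega, by omega, rfl⟩
      have hle : chainsOn adj (fun v => r v < n + 1) ≤
          Submodule.span (ZMod 2) {eg v u₀} ⊔ (B ⊔ L) := by
        have hstar : ∀ u, adj v u → r u < n → eg v u ∈ Submodule.span (ZMod 2) {eg v u₀} ⊔ (B ⊔ L) := by
          intro u h1 h2
          have h3 := key u₀ u (hlink v u₀ u hvu h1 (by omega) (by omega))
          have e : eg v u = eg v u₀ + (eg v u₀ + eg v u) := by
            rw [← add_assoc, add_self2, zero_add]
          rw [e]
          exact Submodule.add_mem_sup (Submodule.mem_span_singleton_self _) h3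
        refine Submodule.span_le.2 ?_
        rintro _ ⟨a, b, hab, ha, hb', rfl⟩
        simp only [Nat.lt_succ_iff] at ha hb'
        rcases eq_or_lt_of_le ha with ha1 | ha1
        · have hav : a = v := hr a v ⟨b, hab⟩ ⟨u₀, hvu⟩ (by omega)
          subst hav
          rcases eq_or_lt_of_le hb' with hb1 | hb1
          · have : b = a := hr b a ⟨a, hs _ _ hab⟩ ⟨b, hab⟩ (by omega)
            subst this
            exact absurd hab (hi _)
          · exact hstar b hab hb1
        · rcases eq_or_lt_of_le hb' with hb1 | hb1
          · have hbv : b = v := hr b v ⟨a, hs _ _ hab⟩ ⟨u₀, hvu⟩ (by omega)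
            subst hbv
            have := hstar a (hs _ _ hab) ha1
            exact (eg_comm a b) ▸ this
          · refine (le_sup_right.trans le_sup_right : L ≤ _) ?_
            exact Submodule.subset_span ⟨a, b, hab, ha1, hb1, rfl⟩
      obtain ⟨s, hs', w, hw, rfl⟩ := Submodule.mem_sup.1 (hle hc)
      obtain ⟨t, ht, d, hd, rfl⟩ := Submodule.mem_sup.1 hw
      obtain ⟨k, rfl⟩ := Submodule.mem_span_singleton.1 hs'
      have hbt : bd1 t = 0 := bd1_of_mem_bdSpan ht
      have hdv : bd1 d v = 0 := bd1_apply_of_mem_chainsOn (p := fun v => r v < n) (by omega) hd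
      have hu0v : u₀ ≠ v := fun h => by rw [h] at hun; omega
      have hk : k = 0 := by
        have h := DFunLike.congr_fun hb v
        rw [map_add, map_add, hbt, zero_add, map_smul, bd1_eg] at h
        simp only [Finsupp.add_apply, Finsupp.smul_apply, hdv, Finsupp.single_eq_same,
          Finsupp.single_eq_of_ne hu0v.symm, add_zero, smul_eq_mul, mul_one,
          Finsupp.coe_zero, Pi.zero_apply] at h
        exact h
      subst hk
      have hbd : bd1 d = 0 := by
        rw [map_add, map_add, hbt, zero_smul, map_zero, zero_add, zero_add] at hb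
        exact hb
      rw [zero_smul, zero_add]
      exact Submodule.add_mem _ ht (hmono (ih d hd hbd))
    · push Not at hv
      have hle : chainsOn adj (fun v => r v < n + 1) ≤ chainsOn adj (fun v => r v < n) := by
        refine Submodule.span_le.2 ?_
        rintro _ ⟨a, b, hab, ha, hb', rfl⟩
        simp only [Nat.lt_succ_iff] at ha hb'
        have ha1 : r a < n := by
          rcases eq_or_lt_of_le ha with ha1 | ha1
          · have h2 := hv a b ha1 hab
            have : b = a := hr b a ⟨a, hs _ _ hab⟩ ⟨b, hab⟩ (by omega)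
            subst this
            exact absurd hab (hi _)
          · exact ha1
        have hb1 : r b < n := by
          rcases eq_or_lt_of_le hb' with hb1 | hb1
          · have h2 := hv b a hb1 (hs _ _ hab)
            omega
          · exact hb1
        exact Submodule.subset_span ⟨a, b, hab, ha1, hb1, rfl⟩
      exact hmono (ih c (hle hc) hb)

/-- **Sweep lemma, cohomological form.** A closed cochain mod 2 is a coboundary. -/
theorem cosweep (adj : V → V → Prop) (hs : ∀ a b, adj a b → adj b a)
    (Face : V → V → V → Prop) (r : V → ℕ)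
    (hr : ∀ a b, adj a b → r a ≠ r b)
    (hlink : ∀ v u u', adj v u → adj v u' → r u < r v → r u' < r v →
      Relation.ReflTransGen (fun a b => r a < r v ∧ r b < r v ∧ Face v a b ∧ adj a b) u u')
    (w : V → V → ZMod 2) (hw : ∀ a b, w a b = w b a)
    (hf : ∀ a b c, Face a b c → w a b + w b c + w a c = 0) :
    ∃ c : V → ZMod 2, ∀ a b, adj a b → c a + c b = w a b := by
  classical
  let step : (v : V) → ((u : V) → r u < r v → ZMod 2) → ZMod 2 := fun v F =>
    if h : ∃ u, adj v u ∧ r u < r v then F h.choose h.choose_spec.2 + w v h.choose else 0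
  have wf : WellFounded fun u v : V => r u < r v := (measure r).wf
  let c : V → ZMod 2 := wf.fix step
  have hc : ∀ v, c v = step v fun u _ => c u := fun v => wf.fix_eq step v
  have key : ∀ n, ∀ v u, r v = n → adj v u → r u < r v → c v = c u + w v u := by
    intro n
    induction n using Nat.strong_induction_on with
    | _ n ih =>
      intro v u hvn hvu hlt
      have h : ∃ u, adj v u ∧ r u < r v := ⟨u, hvu, hlt⟩
      have h0 : c v = c h.choose + w v h.choose := by
        rw [hc v]
        simp only [step, dif_pos h]
      have hedge : ∀ a b, adj a b → r a < r v → r b < r v → c a + c b = w a b := by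
        intro a b hab ha hb
        rcases lt_or_gt_of_ne (hr a b hab) with hlt' | hlt'
        · rw [ih (r b) (by omega) b a rfl (hs _ _ hab) hlt', hw b a, ← add_assoc, add_self2, zero_add]
        · rw [ih (r a) (by omega) a b rfl hab hlt', add_comm (c b), add_assoc, add_self2, add_zero]
      have chain : ∀ b, Relation.ReflTransGen
          (fun a b => r a < r v ∧ r b < r v ∧ Face v a b ∧ adj a b) h.choose b →
          c h.choose + w v h.choose = c b + w v b := by
        intro b hb
        induction hb with
        | refl => rfl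
        | tail _ hbc ih' =>
          rename_i b c' _
          obtain ⟨h1, h2, h3, h4⟩ := hbc
          rw [ih']
          have e1 := hedge b c' h4 h1 h2
          have e2 := hf v b c' h3
          have e3 : c b + w v b + (c c' + w v c') = 0 := by
            have : c b + w v b + (c c' + w v c') = (c b + c c') + w v b + w v c' := by ring
            rw [this, e1, add_comm (w b c')]
            exact e2
          have e4 := add_eq_zero_iff_eq_neg.1 e3
          rw [e4]
          exact ZMod.neg_eq_self_mod_two _
      rw [h0]
      exact chain u (hlink v h.choose u h.choose_spec.1 hvu h.choose_spec.2 hlt)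
  refine ⟨c, fun a b hab => ?_⟩
  rcases lt_or_gt_of_ne (hr a b hab) with hlt | hlt
  · rw [key (r b) b a rfl (hs _ _ hab) hlt, hw b a, ← add_assoc, add_self2, zero_add]
  · rw [key (r a) a b rfl hab hlt, add_comm (c b), add_assoc, add_self2, add_zero]

end Vale.Agent.P148.R2.H990
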