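import Mathlib

open Set Metric Topology

namespace Vale.Agent.P148.R2.H990

/-- The closed Voronoi cell of `v` for the set of points `P`. -/
def vcell (P : Set ℂ) (v : ℂ) : Set ℂ := {z | ∀ w ∈ P, dist z v ≤ dist z w}

/-- Two points of `P` are adjacent if their cells meet. -/
def Adj (P : Set ℂ) (u v : ℂ) : Prop :=
  u ∈ P ∧ v ∈ P ∧ u ≠ v ∧ (vcell P u ∩ vcell P v).Nonempty

/-- A Delaunay face. -/
def Face (P : Set ℂ) (a b c : ℂ) : Prop :=
  a ∈ P ∧ b ∈ P ∧ c ∈ P ∧ a ≠ b ∧ b ≠ c ∧ a ≠ c ∧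
    (vcell P a ∩ vcell P b ∩ vcell P c).Nonempty

theorem Adj.symm {P : Set ℂ} {u v : ℂ} (h : Adj P u v) : Adj P v u :=
  ⟨h.2.1, h.1, h.2.2.1.symm, by rw [inter_comm]; exact h.2.2.2⟩

theorem isClosed_vcell (P : Set ℂ) (v : ℂ) : IsClosed (vcell P v) := by
  have : vcell P v = ⋂ w ∈ P, {z | dist z v ≤ dist z w} := by
    ext z; simp [vcell]
  rw [this]
  exact isClosed_biInter fun w _ => isClosed_le (continuous_id.dist continuous_const)
    (continuous_id.dist continuous_const)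

/-- The difference of the squared distances. -/
noncomputable def lf (v w z : ℂ) : ℝ := dist z v ^ 2 - dist z w ^ 2

theorem dist_sq (z v : ℂ) : dist z v ^ 2 = (z.re - v.re) ^ 2 + (z.im - v.im) ^ 2 := by
  rw [Complex.dist_eq, Complex.sq_norm, Complex.normSq_apply]
  simp only [Complex.sub_re, Complex.sub_im]
  ring

theorem lf_seg (v w p y : ℂ) (t : ℝ) :
    lf v w (p + t * (y - p)) = (1 - t) * lf v w p + t * lf v w y := by
  simp only [lf, dist_sq, Complex.add_re, Complex.add_im, Complex.mul_re, Complex.mul_im,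
    Complex.ofReal_re, Complex.ofReal_im, Complex.sub_re, Complex.sub_im]
  ring

theorem lf_nonpos {v w z : ℂ} : lf v w z ≤ 0 ↔ dist z v ≤ dist z w := by
  rw [lf, sub_nonpos]
  exact pow_le_pow_iff_left₀ dist_nonneg dist_nonneg two_ne_zero

theorem lf_pos {v w z : ℂ} : 0 < lf v w z ↔ dist z w < dist z v := by
  rw [← not_le, lf_nonpos, not_le]

theorem lf_zero {v w z : ℂ} : lf v w z = 0 ↔ dist z v = dist z w := by
  rw [lf, sub_eq_zero]
  exact pow_left_inj₀ dist_nonneg dist_nonneg two_ne_zero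

theorem convex_vcell (P : Set ℂ) (v : ℂ) : Convex ℝ (vcell P v) := by
  intro x hx y hy a b ha hb hab w hw
  have h := lf_seg v w x y b
  have e : a • x + b • y = x + (b : ℂ) * (y - x) := by
    have : (a : ℂ) = 1 - b := by
      have : (a : ℂ) + b = 1 := by exact_mod_cast hab
      linear_combination this
    rw [Complex.real_smul, Complex.real_smul, this]
    ring
  rw [e, ← lf_nonpos, h]
  have h1 := lf_nonpos.2 (hx w hw)
  have h2 := lf_nonpos.2 (hy w hw)
  have h3 : 0 ≤ 1 - b := by linarith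
  nlinarith [mul_nonneg h3 (neg_nonneg.2 h1), mul_nonneg hb (neg_nonneg.2 h2)]

variable {P : Set ℂ}

/-- A point of the cell is behind a visible point of the cell. -/
theorem exists_vis (hfin : ∀ (z : ℂ) (r : ℝ), (P ∩ closedBall z r).Finite) {p v : ℂ}
    (hne : ∃ w ∈ P, dist p w < dist p v) {y : ℂ} (hy : y ∈ vcell P v) :
    ∃ t ∈ Icc (0 : ℝ) 1, ∃ u ∈ P, dist p u < dist p v ∧ p + (t : ℂ) * (y - p) ∈ vcell P v ∧
      lf v u (p + (t : ℂ) * (y - p)) = 0 := by
  set W : Set ℂ := {w ∈ P | dist p w < dist p v} with hW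
  have hWf : W.Finite := by
    refine (hfin p (dist p v)).subset ?_
    rintro w ⟨hw, h⟩
    exact ⟨hw, by rw [mem_closedBall, dist_comm]; exact h.le⟩
  have hWn : W.Nonempty := by
    obtain ⟨w, hw, h⟩ := hne
    exact ⟨w, hw, h⟩
  obtain ⟨u, hu, hmax⟩ := hWf.exists_maximalFor
    (fun w => lf v w p / (lf v w p - lf v w y)) W hWn
  have hpos : ∀ w ∈ W, 0 < lf v w p := fun w hw => lf_pos.2 hw.2
  have hle : ∀ w ∈ P, lf v w y ≤ 0 := fun w hw => lf_nonpos.2 (hy w hw)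
  have hden : ∀ w ∈ W, 0 < lf v w p - lf v w y := fun w hw => by
    have h1 := hpos w hw
    have h2 := hle w hw.1
    linarith
  set t : ℝ := lf v u p / (lf v u p - lf v u y) with ht
  have ht0 : 0 ≤ t := (div_pos (hpos u hu) (hden u hu)).le
  have ht1 : t ≤ 1 := by
    rw [ht, div_le_one (hden u hu)]
    have := hle u hu.1
    linarith
  have hzero : lf v u (p + (t : ℂ) * (y - p)) = 0 := by
    rw [lf_seg, ht]
    have h := (hden u hu).ne'
    field_simp
    ring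
  refine ⟨t, ⟨ht0, ht1⟩, u, hu.1, hu.2, ?_, hzero⟩
  intro w hw
  rw [← lf_nonpos, lf_seg]
  by_cases hwW : w ∈ W
  · have h1 : lf v w p / (lf v w p - lf v w y) ≤ t := by
      by_contra hlt
      push Not at hlt
      have := hmax hwW hlt.le
      exact absurd this (not_le.2 hlt)
    rw [div_le_iff₀ (hden w hwW)] at h1
    nlinarith
  · have h1 : lf v w p ≤ 0 := by
      rw [lf_nonpos]
      by_contra h
      exact hwW ⟨hw, not_le.1 h⟩
    have h2 := hle w hw
    nlinarith [mul_nonneg (sub_nonneg.2 ht1) (neg_nonneg.2 h1), mul_nonneg ht0 (neg_nonneg.2 h2)]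

theorem vis_unique {p v y : ℂ} {t s : ℝ} {u w : ℂ} (hu : u ∈ P) (hw : w ∈ P)
    (hup : dist p u < dist p v) (hwp : dist p w < dist p v)
    (ht : p + (t : ℂ) * (y - p) ∈ vcell P v) (hs : p + (s : ℂ) * (y - p) ∈ vcell P v)
    (ht0 : 0 ≤ t) (hs0 : 0 ≤ s)
    (hut : lf v u (p + (t : ℂ) * (y - p)) = 0) (hws : lf v w (p + (s : ℂ) * (y - p)) = 0) :
    t = s := by
  have key : ∀ (t s : ℝ) (u : ℂ), u ∈ P → dist p u < dist p v → 0 ≤ t → 0 ≤ s →
      p + (s : ℂ) * (y - p) ∈ vcell P v → lf v u (p + (t : ℂ) * (y - p)) = 0 → t ≤ s := by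
    intro t s u hu hup ht0 hs0 hs hut
    have h1 := lf_nonpos.2 (hs u hu)
    have h2 := lf_pos.2 hup
    rw [lf_seg] at h1 hut
    by_contra hlt
    push Not at hlt
    have ht : 0 < t := lt_of_le_of_lt hs0 hlt
    have e : t * ((1 - s) * lf v u p + s * lf v u y) = (t - s) * lf v u p := by
      linear_combination s * hut
    have h3 : 0 < (t - s) * lf v u p := mul_pos (sub_pos.2 hlt) h2
    rw [← e] at h3
    nlinarith
  exact le_antisymm (key t s u hu hup ht0 hs0 hs hut) (key s t w hw hwp hs0 ht0 ht hws)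

/-- The relation of consecutive neighbours in the lower link of `v`. -/
def Low (P : Set ℂ) (p v a b : ℂ) : Prop :=
  dist p a < dist p v ∧ dist p b < dist p v ∧ Face P v a b ∧ Adj P a b

/-- **Visibility.** The lower link of a cell is connected through faces. -/
theorem lower_link (hfin : ∀ (z : ℂ) (r : ℝ), (P ∩ closedBall z r).Finite) {p v u u' : ℂ}
    (h1 : Adj P v u) (h2 : Adj P v u') (hu : dist p u < dist p v) (hu' : dist p u' < dist p v) :
    Relation.ReflTransGen (Low P p v) u u' := by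
  by_contra hcon
  set W : Set ℂ := {w ∈ P | dist p w < dist p v} with hW
  have hWf : W.Finite := by
    refine (hfin p (dist p v)).subset ?_
    rintro w ⟨hw, h⟩
    exact ⟨hw, by rw [mem_closedBall, dist_comm]; exact h.le⟩
  set U1 : Set ℂ := {a ∈ W | Relation.ReflTransGen (Low P p v) u a} with hU1
  set U2 : Set ℂ := {a ∈ W | ¬ Relation.ReflTransGen (Low P p v) u a} with hU2
  let T (U : Set ℂ) : Set ℂ :=
    {y | ∃ t ∈ Icc (0 : ℝ) 1, p + (t : ℂ) * (y - p) ∈ vcell P v ∩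
      ⋃ a ∈ U, {z | lf v a z = 0}}
  have hclosed : ∀ U : Set ℂ, U ⊆ W → IsClosed (T U) := by
    intro U hU
    have hA : IsClosed (vcell P v ∩ ⋃ a ∈ U, {z | lf v a z = 0}) := by
      refine (isClosed_vcell P v).inter ((hWf.subset hU).isClosed_biUnion fun a _ => ?_)
      refine isClosed_eq ?_ continuous_const
      unfold lf
      fun_prop
    have hB : IsClosed {q : ℂ × (Icc (0 : ℝ) 1) | p + ((q.2 : ℝ) : ℂ) * (q.1 - p) ∈
        vcell P v ∩ ⋃ a ∈ U, {z | lf v a z = 0}} := by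
      refine hA.preimage ?_
      fun_prop
    have hC := isClosedMap_fst_of_compactSpace (X := ℂ) (Y := Icc (0 : ℝ) 1) _ hB
    convert hC using 1
    ext y
    simp only [T, mem_ofPred_eq, mem_image, Prod.exists, Subtype.exists]
    constructor
    · rintro ⟨t, ht, h⟩
      exact ⟨y, t, ht, h, rfl⟩
    · rintro ⟨y', t, ht, h, rfl⟩
      exact ⟨t, ht, h⟩
  have hpre := (convex_vcell P v).isPreconnected
  rw [isPreconnected_closed_iff] at hpre
  have hmem : ∀ a ∈ W, (Relation.ReflTransGen (Low P p v) u a ∧ a ∈ U1) ∨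
      (¬ Relation.ReflTransGen (Low P p v) u a ∧ a ∈ U2) := by
    intro a ha
    by_cases h : Relation.ReflTransGen (Low P p v) u a
    · exact Or.inl ⟨h, ha, h⟩
    · exact Or.inr ⟨h, ha, h⟩
  have hcov : vcell P v ⊆ T U1 ∪ T U2 := by
    intro y hy
    obtain ⟨t, ht, a, haP, hap, hz, h0⟩ := exists_vis hfin ⟨u, h1.2.1, hu⟩ hy
    rcases hmem a ⟨haP, hap⟩ with ⟨-, h⟩ | ⟨-, h⟩
    · exact Or.inl ⟨t, ht, hz, mem_biUnion h h0⟩
    · exact Or.inr ⟨t, ht, hz, mem_biUnion h h0⟩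
  have hne : ∀ (U : Set ℂ) (a : ℂ), a ∈ U → Adj P v a → (vcell P v ∩ T U).Nonempty := by
    intro U a ha hadj
    obtain ⟨z, hz1, hz2⟩ := hadj.2.2.2
    refine ⟨z, hz1, 1, ⟨zero_le_one, le_rfl⟩, ?_, ?_⟩
    · simpa using hz1
    · refine mem_biUnion ha ?_
      show lf v a _ = 0
      have e : p + ((1 : ℝ) : ℂ) * (z - p) = z := by push_cast; ring
      rw [e, lf_zero]
      exact le_antisymm (hz1 a hadj.2.1) (hz2 v hadj.1)
  have hu1 : u ∈ U1 := ⟨⟨h1.2.1, hu⟩, Relation.ReflTransGen.refl⟩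
  have hu2 : u' ∈ U2 := ⟨⟨h2.2.1, hu'⟩, hcon⟩
  obtain ⟨y, hy, ⟨t, ht, hz, hzt⟩, ⟨s, hs, hz', hzs⟩⟩ :=
    hpre (T U1) (T U2) (hclosed U1 fun a h => h.1) (hclosed U2 fun a h => h.1) hcov
      (hne U1 u hu1 h1) (hne U2 u' hu2 h2)
  obtain ⟨a, ha, ha0⟩ := mem_iUnion₂.1 hzt
  obtain ⟨b, hb, hb0⟩ := mem_iUnion₂.1 hzs
  have hts : t = s := vis_unique ha.1.1 hb.1.1 ha.1.2 hb.1.2 hz hz' ht.1 hs.1 ha0 hb0
  subst hts
  have hab : a ≠ b := by
    rintro rfl
    exact hb.2 ha.2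
  have hva : v ≠ a := by
    rintro rfl
    exact lt_irrefl _ ha.1.2
  have hvb : v ≠ b := by
    rintro rfl
    exact lt_irrefl _ hb.1.2
  have hmemv : p + (t : ℂ) * (y - p) ∈ vcell P v := hz
  have hcell : ∀ c, lf v c (p + (t : ℂ) * (y - p)) = 0 → p + (t : ℂ) * (y - p) ∈ vcell P c := by
    intro c hc w hw
    rw [← lf_zero.1 hc]
    exact hmemv w hw
  have hvP : v ∈ P := h1.1
  refine hb.2 (ha.2.tail ⟨ha.1.2, hb.1.2, ⟨hvP, ha.1.1, hb.1.1, hva, hab, hvb, ?_⟩,
    ⟨ha.1.1, hb.1.1, hab, ?_⟩⟩)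
  · exact ⟨_, ⟨hmemv, hcell a ha0⟩, hcell b hb0⟩
  · exact ⟨_, hcell a ha0, hcell b hb0⟩

end Vale.Agent.P148.R2.H990
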