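import Vale.Agent.P148.R2.H258.A6

open Function
open Vale.Agent.P148.R2.H258 (Tri)

namespace Vale.Agent.P148.R2.H990

variable {V D : Type*} (T : Tri V D)

/-- Darts joined by turning around faces and crossing edges which are not loops. -/
def Nlc : D → D → Prop :=
  Relation.EqvGen (fun f g => g = T.nxt f ∨ (T.src f ≠ T.tgt f ∧ g = T.rev f))

/-- A face function without jumps across edges which are not loops is constant on the classes
of `Nlc`. -/
theorem nlc_const {G : D → ZMod 2} (h1 : ∀ d, G (T.nxt d) = G d)
    (h2 : ∀ d, T.src d ≠ T.tgt d → G (T.rev d) = G d) {d e : D} (h : Nlc T d e) : G d = G e := by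
  induction h with
  | rel f g h =>
    rcases h with rfl | ⟨h, rfl⟩
    · exact (h1 f).symm
    · exact (h2 f h).symm
  | refl => rfl
  | symm _ _ _ ih => exact ih.symm
  | trans _ _ _ _ _ ih1 ih2 => exact ih1.trans ih2

/-- The rotation around the source. -/
def rot (d : D) : D := T.rev (T.nxt (T.nxt d))

theorem src_rot (d : D) : T.src (rot T d) = T.src d := by
  rw [rot, T.src_rev, T.tgt_nxt2]

theorem rot_inv (d : D) : T.nxt (T.rev (rot T d)) = d := by
  rw [rot, T.rev_rev, T.nxt3]

theorem rot_inv' (d : D) : rot T (T.nxt (T.rev d)) = d := by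
  rw [rot, T.nxt3, T.rev_rev]

theorem z2self (a : ZMod 2) : a + a = 0 := by revert a; decide

open Classical in
/-- **Parity.** The jumps of a face function around a vertex sum to zero. -/
theorem parity [Fintype D] {G : D → ZMod 2} (h1 : ∀ d, G (T.nxt d) = G d) (v : V) :
    ∑ f ∈ Finset.univ.filter (fun f => T.src f = v), (G f + G (T.rev f)) = 0 := by
  rw [Finset.sum_add_distrib]
  have h2 : ∑ f ∈ Finset.univ.filter (fun f => T.src f = v), G f =
      ∑ f ∈ Finset.univ.filter (fun f => T.src f = v), G (T.rev f) := by
    refine Finset.sum_nbij' (fun f => rot T f) (fun f => T.nxt (T.rev f)) ?_ ?_ ?_ ?_ ?_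
    · intro f hf
      rw [Finset.mem_filter] at hf ⊢
      exact ⟨Finset.mem_univ _, by rw [src_rot, hf.2]⟩
    · intro f hf
      rw [Finset.mem_filter] at hf ⊢
      exact ⟨Finset.mem_univ _, by rw [T.src_nxt', T.tgt_rev, hf.2]⟩
    · intro f _; exact rot_inv T f
    · intro f _; exact rot_inv' T f
    · intro f _
      rw [rot, T.rev_rev, h1, h1]
  rw [h2]
  exact z2self _

open Classical in
/-- The jumps across the non loops around a vertex sum to zero. -/
theorem parity' [Fintype D] {G : D → ZMod 2} (h1 : ∀ d, G (T.nxt d) = G d) (v : V) :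
    ∑ f ∈ Finset.univ.filter (fun f => T.src f = v ∧ T.src f ≠ T.tgt f), (G f + G (T.rev f)) = 0 := by
  have h2 := parity T h1 v
  have h3 : ∑ f ∈ Finset.univ.filter (fun f => T.src f = v ∧ T.src f = T.tgt f),
      (G f + G (T.rev f)) = 0 := by
    refine Finset.sum_involution (fun f _ => T.rev f) ?_ ?_ ?_ ?_
    · intro f _
      rw [T.rev_rev]
      have : ∀ a b : ZMod 2, a + b + (b + a) = 0 := by decide
      exact this _ _
    · intro f _ hf he
      apply hf
      rw [he]
      exact z2self _
    · intro f hf
      rw [Finset.mem_filter] at hf ⊢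
      refine ⟨Finset.mem_univ _, ?_, ?_⟩
      · rw [T.src_rev, ← hf.2.2, hf.2.1]
      · rw [T.src_rev, T.tgt_rev, hf.2.2]
    · intro f _; exact T.rev_rev f
  have h4 : Finset.univ.filter (fun f => T.src f = v) =
      Finset.univ.filter (fun f => T.src f = v ∧ T.src f ≠ T.tgt f) ∪
        Finset.univ.filter (fun f => T.src f = v ∧ T.src f = T.tgt f) := by
    ext f
    simp only [Finset.mem_filter, Finset.mem_univ, true_and, Finset.mem_union]
    tauto
  rw [h4, Finset.sum_union, h3, add_zero] at h2
  · exact h2
  · rw [Finset.disjoint_left]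
    intro f hf hf'
    rw [Finset.mem_filter] at hf hf'
    exact hf.2.2 hf'.2.2

theorem walk_split {T : Tri V D} {u w : V} {l m : List D} (h : T.Walk u w (l ++ m)) :
    ∃ v, T.Walk u v l ∧ T.Walk v w m := by
  induction l generalizing u with
  | nil => exact ⟨u, Tri.Walk.nil u, h⟩
  | cons d l ih =>
    cases h with
    | cons _ _ _ h' =>
      obtain ⟨v, h1, h2⟩ := ih h'
      exact ⟨v, Tri.Walk.cons d v l h1, h2⟩

/-- Jumps supported on a simple path vanish. -/
theorem jump_zero [Finite D] {G : D → ZMod 2} (h1 : ∀ d, G (T.nxt d) = G d) {u w : V}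
    {L : List D} (hw : T.Walk u w L) (hnd : (L.map T.src).Nodup) (hwL : ∀ e ∈ L, T.src e ≠ w)
    (hsupp : ∀ f, T.src f ≠ T.tgt f → f ∉ L → T.rev f ∉ L → G f + G (T.rev f) = 0) :
    ∀ f, T.src f ≠ T.tgt f → G f + G (T.rev f) = 0 := by
  classical
  have := Fintype.ofFinite D
  have key : ∀ l1 l2 : List D, L = l1 ++ l2 → ∀ f ∈ l1, G f + G (T.rev f) = 0 := by
    intro l1
    induction l1 using List.reverseRecOn with
    | nil => intro l2 _ f hf; simp at hf
    | append_singleton l1 f0 ih =>
      intro l2 hL f hf
      rw [List.mem_append, List.mem_singleton] at hf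
      have hL' : L = l1 ++ (f0 :: l2) := by rw [hL]; simp
      rcases hf with hf | rfl
      · exact ih (f0 :: l2) hL' f hf
      · have hfL : f ∈ L := by rw [hL']; simp
        -- targets of later darts
        obtain ⟨v, hv1, hv2⟩ := walk_split (hL' ▸ hw)
        have htail : ∀ e ∈ f :: l2, T.tgt e ≠ T.src f := by
          intro e he heq
          have hne : ∀ g ∈ l2, T.src g ≠ T.src f := by
            intro g hg hh
            rw [hL', List.map_append, List.nodup_append] at hnd
            have h5 := hnd.2.1
            rw [List.map_cons, List.nodup_cons] at h5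
            exact h5.1 (by rw [← hh]; exact List.mem_map_of_mem hg)
          cases hv2 with
          | cons _ _ _ h' =>
            have h6 : ∀ e ∈ f :: l2, T.tgt e = w ∨ ∃ g ∈ l2, T.src g = T.tgt e := by
              intro e he
              rcases List.mem_cons.1 he with rfl | he
              · rcases h'.casesOn' with ⟨_, h7⟩ | ⟨g, l', h7, h8, _⟩
                · left; exact h7
                · right; exact ⟨g, by simp [h7], h8⟩
              · exact h'.tgt_mem e he
            rcases h6 e he with h7 | ⟨g, hg, h7⟩
            · exact hwL f hfL (by rw [← heq, h7])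
            · exact hne g hg (h7.trans heq)
        have hpar := parity' T h1 (T.src f)
        have hloop : T.src f ≠ T.tgt f := fun hh => htail f List.mem_cons_self hh.symm
        rw [Finset.sum_eq_single f] at hpar
        · exact hpar
        · intro g hg hgf
          rw [Finset.mem_filter] at hg
          by_contra hne
          have hor : g ∈ L ∨ T.rev g ∈ L := by
            by_contra hcon
            push Not at hcon
            exact hne (hsupp g hg.2.2 hcon.1 hcon.2)
          rcases hor with hor | hor
          · exact hgf (List.inj_on_of_nodup_map hnd hor hfL hg.2.1)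
          · rw [hL', List.mem_append] at hor
            rcases hor with hor | hor
            · have h8 := ih (f :: l2) hL' _ hor
              rw [T.rev_rev, add_comm] at h8
              exact hne h8
            · exact htail _ hor (by rw [T.tgt_rev, hg.2.1])
        · intro hnot
          exact absurd (Finset.mem_filter.2 ⟨Finset.mem_univ _, rfl, hloop⟩) hnot
  intro f hf
  by_cases h2 : f ∈ L
  · exact key L [] (by simp) f h2
  · by_cases h3 : T.rev f ∈ L
    · have := key L [] (by simp) _ h3
      rw [T.rev_rev, add_comm] at this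
      exact this
    · exact hsupp f hf h2 h3

/-- The colours along a monochromatic closed walk. -/
theorem walk_col {T : Tri V D} {σ : V → Bool} {c : Bool} {u w : V} {l : List D}
    (h : T.Walk u w l) (hw : σ w = c) (hl : ∀ e ∈ l, σ (T.src e) = c) :
    ∀ e ∈ l, σ (T.src e) = σ (T.tgt e) := by
  intro e he
  rw [hl e he]
  rcases h.tgt_mem e he with h1 | ⟨g, hg, h1⟩
  · rw [h1, hw]
  · rw [← h1, hl g hg]

/-- **The lowest crossing is the lowest.** A majority path from the apex to the source of the
outer dart `d` separates less than the class of `d`. -/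
theorem pot_of_path [Finite D] (hP : T.Planar) {σ : V → Bool} {d : D} (h : T.Mi σ d)
    (hg : T.apex d ≠ T.src d) {l : List D} (hw : T.Walk (T.apex d) (T.src d) l)
    (hcol : ∀ e ∈ l, σ (T.src e) = σ (T.src d)) (hnd : (l.map T.src).Nodup)
    (hne : ∀ e ∈ l, T.src e ≠ T.src d) {N : D → ZMod 2}
    (hN1 : ∀ e, N (T.nxt e) = N e)
    (hN2 : ∀ e, T.src e ≠ T.tgt e → N e + N (T.rev e) = T.mu (T.rev (T.nxt (T.nxt d)) :: l) e)
    (hN0 : N d = 0) {e : D} (he : Nlc T d e) (hNe : N e = 1) : T.pot σ d e = 1 := by
  classical
  have hcolw : ∀ f ∈ T.rev (T.nxt (T.nxt d)) :: l, σ (T.src f) = σ (T.tgt f) := by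
    intro f hf
    rcases List.mem_cons.1 hf with rfl | hf
    · rw [T.src_rev, T.tgt_nxt2, T.tgt_rev, T.src_nxt2]
      exact h.2.symm
    · exact walk_col hw rfl hcol f hf
  -- `N` vanishes along the strand
  have hstrand : ∀ n, N ((T.st σ)^[n] d) = 0 := by
    intro n
    induction n with
    | zero => exact hN0
    | succ n ih =>
      have hb : T.Bi σ ((T.st σ)^[n] d) := (T.bi_iter n).2 h.bi
      have hb1 : T.Bi σ ((T.st σ)^[n + 1] d) := (T.bi_iter (n + 1)).2 h.bi
      have h3 := hN2 ((T.st σ)^[n + 1] d) (fun hh => hb1 (by rw [hh]))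
      rw [T.mu_mono hcolw hb1] at h3
      have h4 : N (T.rev ((T.st σ)^[n + 1] d)) = N ((T.st σ)^[n] d) := by
        rw [iterate_succ', comp_apply]
        exact T.face_st hN1 hb
      rw [h4, ih, add_zero] at h3
      exact h3
  have hmem : ∀ g, T.Rel σ d g → N g = 0 := by
    rintro g ⟨-, -, n, -, rfl, -⟩
    exact hstrand n
  set G : D → ZMod 2 := fun f => N f * (1 + T.pot σ d f) with hG
  have hG1 : ∀ f, G (T.nxt f) = G f := by
    intro f
    simp only [hG]
    rw [hN1, T.pot_nxt hP h hg]
  -- jumps at the cycle vanish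
  have hin : ∀ f, T.src f ≠ T.tgt f → T.InG σ d f → G f = 0 ∧ G (T.rev f) = 0 := by
    intro f hf hi
    obtain ⟨g, hgr, hfg⟩ := hi
    have hr : T.rev f = T.nxt (T.nxt g) := by rw [hfg, T.rev_rev]
    have hNr : N (T.rev f) = 0 := by rw [hr, hN1, hN1, hmem g hgr]
    refine ⟨?_, by simp only [hG]; rw [hNr, zero_mul]⟩
    by_cases hi2 : T.InG σ d (T.rev f)
    · obtain ⟨g', hgr', hfg'⟩ := hi2
      have hf' : f = T.nxt (T.nxt g') := by
        have := congrArg T.rev hfg'
        rwa [T.rev_rev, T.rev_rev] at this
      simp only [hG]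
      rw [hf', hN1, hN1, hmem g' hgr', zero_mul]
    · have h5 := T.pot_rev_one hP h hg hf ⟨g, hgr, hfg⟩ hi2
      rw [hr, T.pot_nxt hP h hg, T.pot_nxt hP h hg, T.pot_member hP h hg hgr] at h5
      simp only [hG]
      have : 1 + T.pot σ d f = 0 := by rw [add_comm]; exact h5.symm
      rw [this, mul_zero]
  have hγ : T.InG σ d (T.rev (T.nxt (T.nxt d))) := T.inG_self h
  have hjump := jump_zero T hG1 hw hnd hne (by
    intro f hf hfl hrl
    by_cases hi : T.InG σ d f
    · obtain ⟨h5, h6⟩ := hin f hf hi
      rw [h5, h6, add_zero]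
    · by_cases hi2 : T.InG σ d (T.rev f)
      · obtain ⟨h5, h6⟩ := hin (T.rev f) (by rw [T.src_rev, T.tgt_rev]; exact hf.symm) hi2
        rw [T.rev_rev] at h6
        rw [h5, h6, add_zero]
      · have h5 := T.pot_rev_not hP h hg hf hi hi2
        have h6 : N f + N (T.rev f) = 0 := by
          rw [hN2 f hf]
          apply T.mu_zero
          · intro hm
            rcases List.mem_cons.1 hm with hm | hm
            · exact hi (by rw [hm]; exact hγ)
            · exact hfl hm
          · intro hm
            rcases List.mem_cons.1 hm with hm | hm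
            · exact hi2 (by rw [hm]; exact hγ)
            · exact hrl hm
        simp only [hG]
        rw [h5, ← add_mul, h6, zero_mul])
  have hconst := nlc_const T hG1 (fun f hf => by
    have := hjump f hf
    revert this
    generalize G f = a
    generalize G (T.rev f) = b
    revert a b; decide) he
  simp only [hG] at hconst
  rw [hN0, zero_mul, hNe, one_mul] at hconst
  revert hconst
  generalize T.pot σ d e = a
  revert a; decide

end Vale.Agent.P148.R2.H990
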