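import Vale.Agent.P148.R2.F.Defs
import Vale.Agent.P148.R2.H729.Q9

/-!
# P148, module X: crossings by cells of uniform subsets and the quenched crossing probability
-/

open MeasureTheory Set Metric Topology Filter ProbabilityTheory
open scoped ENNReal NNReal

namespace Vale.Agent.P148.R2.H990

open _root_.P148
open _root_.P148.H729 (avg paint OneCol pts_paint mem_paint_of_mem mem_paint_of_notMem avg_eq_sum)
open Vale.Agent.P148.R2.H592 (nbr vcell)
open Vale.Agent.P148.R2.H847 (qpr)
open Vale.Agent.P148.R2.F (qcross)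

theorem vcell_sub_gap {S : Set Pt} {v : ℂ} (hv : (v, true) ∈ S) (hne : (col S false).Nonempty) :
    vcell (pts S) v ⊆ {z | gap S z ≤ 0} := by
  intro z hz
  have h1 : infDist z (col S true) ≤ dist z v := infDist_le_dist_of_mem hv
  have h2 : dist z v ≤ infDist z (col S false) := by
    refine (le_infDist hne).2 fun {w} hw => ?_
    exact hz w ⟨(w, false), hw, rfl⟩
  show infDist z (col S true) - infDist z (col S false) ≤ 0
  linarith

/-- **The probability of a crossing by the cells of a uniform subset of the points in a ball is at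
most the quenched crossing probability.** -/
theorem qpr_le_qcross (Q : Quad) (a a' : Fin 4) {R : ℝ} {T : Set Pt}
    (hfin : (pts T ∩ ball 0 R).Finite) (hone : OneCol T)
    (hcol : ∃ v, v ∉ ball (0 : ℂ) R ∧ (v, false) ∈ T) :
    qpr (pts T ∩ ball 0 R) (fun W => Q.Cross a a' (⋃ v ∈ W, vcell (pts T) v)) ≤
      qcross Q a a' R T := by
  classical
  set N : Set ℂ := pts T ∩ ball 0 R with hN
  have : Finite N := hfin
  have := Fintype.ofFinite N
  set e : N → ℂ := Subtype.val with he
  have hr : range e = pts T ∩ ball 0 R := Subtype.range_coe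
  have hinj : Function.Injective e := Subtype.val_injective
  set F : Set Pt → ℝ≥0∞ := (crossSet Q a a').indicator 1 with hF
  have h0 : avg (ball 0 R) F T = (2 ^ Fintype.card N)⁻¹ *
      ∑ c : N → Bool, F (paint T (ball 0 R) e c) := avg_eq_sum hinj hr hone F
  have h1 : ∑ c : N → Bool, F (paint T (ball 0 R) e c) =
      ((Finset.univ.filter fun c : N → Bool => paint T (ball 0 R) e c ∈ crossSet Q a a').card :
        ℝ≥0∞) := by
    rw [Finset.card_filter]
    push_cast
    refine Finset.sum_congr rfl fun c _ => ?_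
    rw [hF]
    by_cases hc : paint T (ball 0 R) e c ∈ crossSet Q a a'
    · rw [indicator_of_mem hc, if_pos hc, Pi.one_apply]
    · rw [indicator_of_notMem hc, if_neg hc]
  unfold qcross
  rw [show avg (ball 0 R) ((crossSet Q a a').indicator 1) T = _ from h0, h1]
  rw [ENNReal.toReal_mul, ENNReal.toReal_natCast, ENNReal.toReal_inv, ENNReal.toReal_pow]
  unfold qpr
  have e2 : (2 : ℝ≥0∞).toReal = 2 := by norm_num
  have e3 : N.ncard = Fintype.card N := by
    rw [← Nat.card_coe_set_eq, Nat.card_eq_fintype_card]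
  rw [e2, e3, div_eq_mul_inv, mul_comm]
  refine mul_le_mul_of_nonneg_left ?_ (by positivity)
  norm_cast
  rw [← Set.ncard_coe_finset]
  refine Set.ncard_le_ncard_of_injOn (fun W : Set ℂ => fun i : N => decide (i.1 ∈ W)) ?_ ?_
    (Finset.finite_toSet _)
  · rintro W ⟨hW, hc⟩
    rw [Finset.mem_coe, Finset.mem_filter]
    refine ⟨Finset.mem_univ _, ?_⟩
    set c : N → Bool := fun i => decide (i.1 ∈ W) with hcdef
    set S' := paint T (ball 0 R) e c with hS'
    have hpts : pts S' = pts T := pts_paint c hr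
    have hne : (col S' false).Nonempty := by
      obtain ⟨v, hv, hvT⟩ := hcol
      exact ⟨v, (mem_paint_of_notMem c hr (q := (v, false)) hv).2 hvT⟩
    show Q.Cross a a' {z | gap S' z ≤ 0}
    obtain ⟨K, hK, h3⟩ := hc
    refine ⟨K, fun z hz => ⟨?_, (hK hz).2⟩, h3⟩
    obtain ⟨v, hv, hzv⟩ := mem_iUnion₂.1 (hK hz).1
    have hvS : (v, true) ∈ S' := by
      refine (mem_paint_of_mem c (q := (v, true)) (hW hv).2).2 ⟨⟨v, hW hv⟩, rfl, ?_⟩
      exact decide_eq_true hv
    refine vcell_sub_gap hvS hne ?_
    rw [hpts]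
    exact hzv
  · rintro W ⟨hW, -⟩ W' ⟨hW', -⟩ heq
    have h2 : ∀ x ∈ N, x ∈ W ↔ x ∈ W' := by
      intro x hx
      have := congrFun heq ⟨x, hx⟩
      simpa using this
    ext x
    constructor
    · intro hx; exact (h2 x (hW hx)).1 hx
    · intro hx; exact (h2 x (hW' hx)).2 hx

end Vale.Agent.P148.R2.H990
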