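import Vale.Agent.P148.R2.H990.X8

/-!
# P148, module X: the geometry of the perturbed quads
-/

open Set Metric

namespace Vale.Agent.P148.R2.H990

open Vale.Agent.P148.R2.H592 Vale.Agent.P148.R2 Vale.Agent.P148.R2.H847
open _root_.P148 (sq side Quad)

/-- What is used about a discrete domain with classes `O j` near the closed sets `C j`: points deep
inside `D'` are free, free points are near `D'`, the neighbours in `O j` of free points are near
`C j`. -/
structure DomI (D' : Set ℂ) (C : ZMod 3 → Set ℂ) (X : Set ℂ) (O : ZMod 3 → Set ℂ) (r : ℝ) : Prop where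
  disj : Pairwise fun i j => Disjoint (O i) (O j)
  deep : ∀ x ∈ X, ball x r ⊆ D' → x ∈ Gf X O
  near : ∀ x ∈ Gf X O, ∃ c ∈ closure D', dist x c ≤ r
  arcs : ∀ x ∈ Gf X O, ∀ j, ∀ y ∈ O j, nbr X x y → ∃ c ∈ C j, dist y c ≤ r

theorem exists_room {K V : Set ℂ} (hK : IsCompact K) (hV : IsOpen V) (hKV : K ⊆ V) :
    ∃ δ > 0, ∀ c ∈ K, ∀ z, dist z c < δ → z ∈ V := by
  obtain ⟨δ, hδ, h⟩ := hK.exists_thickening_subset_open hV hKV
  exact ⟨δ, hδ, fun c hc z hz => h (mem_thickening_iff.2 ⟨c, hc, hz⟩)⟩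

theorem continuous_mk (x : ℝ) : Continuous fun t : ℝ => (⟨x, t⟩ : ℂ) := by
  have : (fun t : ℝ => (⟨x, t⟩ : ℂ)) = fun t : ℝ => Complex.equivRealProdCLM.symm (x, t) := by
    funext t
    apply Complex.ext
    · simp [Complex.equivRealProdCLM_symm_apply]
    · simp [Complex.equivRealProdCLM_symm_apply]
  rw [this]
  exact Complex.equivRealProdCLM.symm.continuous.comp (continuous_const.prodMk continuous_id)

theorem continuous_mk' (y : ℝ) : Continuous fun t : ℝ => (⟨t, y⟩ : ℂ) := by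
  have : (fun t : ℝ => (⟨t, y⟩ : ℂ)) = fun t : ℝ => Complex.equivRealProdCLM.symm (t, y) := by
    funext t
    apply Complex.ext
    · simp [Complex.equivRealProdCLM_symm_apply]
    · simp [Complex.equivRealProdCLM_symm_apply]
  rw [this]
  exact Complex.equivRealProdCLM.symm.continuous.comp (continuous_id.prodMk continuous_const)

theorem isCompact_box (a c : ℝ) : IsCompact {z : ℂ | |z.re| ≤ a ∧ |z.im| ≤ c} := by
  refine Metric.isCompact_of_isClosed_isBounded ?_ ?_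
  · exact (isClosed_le (continuous_abs.comp Complex.continuous_re) continuous_const).inter
      (isClosed_le (continuous_abs.comp Complex.continuous_im) continuous_const)
  · refine (isBounded_closedBall (x := (0 : ℂ)) (r := |a| + |c|)).subset ?_
    rintro z ⟨h1, h2⟩
    rw [mem_closedBall, dist_zero_right]
    refine (Complex.norm_le_abs_re_add_abs_im z).trans ?_
    have := le_abs_self a
    have := le_abs_self c
    linarith

theorem geoMain (H : ℂ ≃ₜ ℂ) {s : ℝ} (hs : 0 < s) (hs1 : s < 1) {w : ℂ} (hw1 : -(1 - s) < w.re)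
    (hw2 : w.re < 1 - s) (hw3 : -1 < w.im) (hw4 : w.im < 1) {A B : Set ℂ} (hA : IsOpen A)
    (hAw : ∀ t ∈ Icc (-1 - s / 2) w.im, H ⟨w.re, t⟩ ∈ A) (hB : IsOpen B)
    (hBw : ∀ z : ℂ, |z.re| ≤ 1 - s → z.im = 1 + s → H z ∈ B) :
    ∃ r₁ > 0, ∃ R : ℝ, ∀ (X Y U : Set ℂ) (ρ r : ℝ) (O C : ZMod 3 → Set ℂ) (k u : ZMod 3) (p₀ : ℂ),
      Win X Y U ρ → ρ ≤ r₁ → r ≤ r₁ → closedBall 0 R ⊆ U →
      DomI (H '' {z | |z.re| < 1 - s ∧ |z.im| < 1 + s}) C X O r →
      (∀ j, j ≠ k → C j ⊆ H '' {z | z.im = -(1 + s) ∨ z.re = 1 - s ∨ z.im = 1 + s}) →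
      (C u ⊆ H '' {z | |z.re| ≤ 1 - s ∧ z.im = 1 + s}) → p₀ ∈ X → dist p₀ (H w) ≤ r₁ →
      (∃ κ, Geo X Y U ρ O k κ A {x | (H.symm x).im ≤ -1} p₀) ∧
      (∀ a ∈ Gf X O, ∀ z ∈ closedBall a ρ, |(H.symm z).re| ≤ 1) ∧
      ∀ x ∈ Gf X O, ∀ v ∈ O u, nbr X x v → 1 ≤ (H.symm x).im ∧ x ∈ B := by
  set S' : Set ℂ := {z | |z.re| ≤ 1 - s ∧ |z.im| ≤ 1 + s} with hS'
  have hS'c : IsCompact S' := isCompact_box _ _
  have hHS : IsCompact (H '' S') := hS'c.image H.continuous
  have hDS : closure (H '' {z : ℂ | |z.re| < 1 - s ∧ |z.im| < 1 + s}) ⊆ H '' S' := by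
    refine closure_minimal (image_mono ?_) hHS.isClosed
    rintro z ⟨h1, h2⟩
    exact ⟨h1.le, h2.le⟩
  set κv : Set ℂ := (fun t : ℝ => (⟨w.re, t⟩ : ℂ)) '' Icc (-1 - s / 2) w.im with hκv
  set κh : Set ℂ := (fun t : ℝ => (⟨t, -1 - s / 2⟩ : ℂ)) '' Icc (-1) w.re with hκh
  have hκvc : IsCompact κv := isCompact_Icc.image (continuous_mk _)
  have hκhc : IsCompact κh := isCompact_Icc.image (continuous_mk' _)
  have hκvp : IsPreconnected κv := isPreconnected_Icc.image _ (continuous_mk _).continuousOn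
  have hκhp : IsPreconnected κh := isPreconnected_Icc.image _ (continuous_mk' _).continuousOn
  have hle1 : -1 - s / 2 ≤ w.im := by linarith
  have hle2 : (-1 : ℝ) ≤ w.re := by linarith
  have hc1 : (⟨w.re, -1 - s / 2⟩ : ℂ) ∈ κv := ⟨-1 - s / 2, left_mem_Icc.2 hle1, rfl⟩
  have hc2 : (⟨w.re, -1 - s / 2⟩ : ℂ) ∈ κh := ⟨w.re, right_mem_Icc.2 hle2, rfl⟩
  have hwκ : w ∈ κv := ⟨w.im, right_mem_Icc.2 hle1, rfl⟩
  set κ₀ : Set ℂ := H '' (κv ∪ κh) with hκ₀
  have hκ₀c : IsCompact κ₀ := (hκvc.union hκhc).image H.continuous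
  have hκ₀p : IsPreconnected κ₀ :=
    (IsPreconnected.union _ hc1 hc2 hκvp hκhp).image _ H.continuous.continuousOn
  -- open sets
  have o1 : IsOpen {z : ℂ | |(H.symm z).re| < 1} :=
    isOpen_lt (continuous_abs.comp (Complex.continuous_re.comp H.symm.continuous)) continuous_const
  have o2 : IsOpen ({z : ℂ | 1 < (H.symm z).im} ∩ B) :=
    (isOpen_lt continuous_const (Complex.continuous_im.comp H.symm.continuous)).inter hB
  have o3 : IsOpen {z : ℂ | (H.symm z).im < -1} :=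
    isOpen_lt (Complex.continuous_im.comp H.symm.continuous) continuous_const
  have o4 : IsClosed (H '' {z : ℂ | z.im = -(1 + s) ∨ z.re = 1 - s ∨ z.im = 1 + s}) := by
    rw [H.isClosed_image]
    exact (isClosed_eq Complex.continuous_im continuous_const).union
      ((isClosed_eq Complex.continuous_re continuous_const).union
        (isClosed_eq Complex.continuous_im continuous_const))
  have o5 : IsOpen (H '' {z : ℂ | |z.re| < 1 - s ∧ |z.im| < 1 + s}) := by
    rw [H.isOpen_image]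
    exact (isOpen_lt (continuous_abs.comp Complex.continuous_re) continuous_const).inter
      (isOpen_lt (continuous_abs.comp Complex.continuous_im) continuous_const)
  have hT'c : IsCompact {z : ℂ | |z.re| ≤ 1 - s ∧ z.im = 1 + s} := by
    refine hS'c.of_isClosed_subset ?_ ?_
    · exact (isClosed_le (continuous_abs.comp Complex.continuous_re) continuous_const).inter
        (isClosed_eq Complex.continuous_im continuous_const)
    · rintro z ⟨h1, h2⟩
      refine ⟨h1, ?_⟩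
      rw [h2, abs_of_pos (by linarith)]
  obtain ⟨δ₁, hδ₁, d1⟩ := exists_room hHS o1 (by
    rintro _ ⟨z, hz, rfl⟩
    show |(H.symm (H z)).re| < 1
    rw [H.symm_apply_apply]
    exact hz.1.trans_lt (by linarith))
  obtain ⟨δ₂, hδ₂, d2⟩ := exists_room (hT'c.image H.continuous) o2 (by
    rintro _ ⟨z, hz, rfl⟩
    refine ⟨?_, hBw z hz.1 hz.2⟩
    show 1 < (H.symm (H z)).im
    rw [H.symm_apply_apply, hz.2]
    linarith)
  set z₁ : ℂ := H ⟨-1, -1 - s / 2⟩ with hz₁
  have hz₁S : z₁ ∉ H '' S' := by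
    rintro ⟨z, hz, he⟩
    have : z = ⟨-1, -1 - s / 2⟩ := H.injective he
    rw [this] at hz
    have h1 := hz.1
    simp only [abs_neg, abs_one] at h1
    linarith
  obtain ⟨δ₃, hδ₃, d3⟩ := exists_room (isCompact_singleton (x := z₁)) hHS.isClosed.isOpen_compl
    (singleton_subset_iff.2 hz₁S)
  obtain ⟨δ₄, hδ₄, d4⟩ := exists_room hκ₀c o4.isOpen_compl (by
    rintro _ ⟨z, hz, rfl⟩ ⟨z', hz', he⟩
    rw [H.injective he] at hz'
    rcases hz with ⟨t, ht, rfl⟩ | ⟨t, ht, rfl⟩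
    · rcases hz' with h1 | h1 | h1 <;> simp only at h1
      · linarith [ht.1]
      · linarith
      · linarith [ht.2]
    · rcases hz' with h1 | h1 | h1 <;> simp only at h1
      · linarith
      · linarith [ht.2]
      · linarith)
  obtain ⟨δ₅, hδ₅, d5⟩ := exists_room (hκvc.image H.continuous) hA (by
    rintro _ ⟨_, ⟨t, ht, rfl⟩, rfl⟩
    exact hAw t ht)
  obtain ⟨δ₆, hδ₆, d6⟩ := exists_room (hκhc.image H.continuous) o3 (by
    rintro _ ⟨_, ⟨t, ht, rfl⟩, rfl⟩
    show (H.symm (H _)).im < -1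
    rw [H.symm_apply_apply]
    show -1 - s / 2 < -1
    linarith)
  obtain ⟨δ₇, hδ₇, d7⟩ := exists_room (isCompact_singleton (x := H w)) o5
    (singleton_subset_iff.2 ⟨w, ⟨abs_lt.2 ⟨hw1, hw2⟩, abs_lt.2 ⟨by linarith, by linarith⟩⟩, rfl⟩)
  obtain ⟨R₀, hR₀⟩ := (hHS.union hκ₀c).isBounded.subset_closedBall (0 : ℂ)
  set m : ℝ := min (min (min δ₁ δ₂) (min δ₃ δ₄)) (min (min δ₅ δ₆) (min δ₇ 1)) with hm
  have hm0 : 0 < m := by
    simp only [hm, lt_min_iff]
    exact ⟨⟨⟨hδ₁, hδ₂⟩, hδ₃, hδ₄⟩, ⟨hδ₅, hδ₆⟩, hδ₇, one_pos⟩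
  have hmle : m ≤ δ₁ ∧ m ≤ δ₂ ∧ m ≤ δ₃ ∧ m ≤ δ₄ ∧ m ≤ δ₅ ∧ m ≤ δ₆ ∧ m ≤ δ₇ ∧ m ≤ 1 := by
    have := le_refl m
    simp only [hm, le_min_iff] at this
    obtain ⟨⟨⟨a1, a2⟩, a3, a4⟩, ⟨a5, a6⟩, a7, a8⟩ := this
    exact ⟨a1, a2, a3, a4, a5, a6, a7, a8⟩
  obtain ⟨m1, m2, m3, m4, m5, m6, m7, m8⟩ := hmle
  refine ⟨m / 8, by positivity, R₀ + 4, ?_⟩
  intro X Y U ρ r O C k u p₀ hw hρ hr hU hD hCk hCu hp₀X hp₀
  have hρ0 := hw.pos
  have hnorm : ∀ {c z : ℂ} {t : ℝ}, c ∈ H '' S' ∪ κ₀ → dist z c ≤ t → t ≤ 4 → z ∈ U := by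
    intro c z t hc hz ht
    apply hU
    rw [mem_closedBall]
    have h1 := hR₀ hc
    rw [mem_closedBall] at h1
    calc dist z 0 ≤ dist z c + dist c 0 := dist_triangle _ _ _
      _ ≤ R₀ + 4 := by linarith
  have hGnear : ∀ a ∈ Gf X O, ∃ c ∈ H '' S', dist a c ≤ r := by
    intro a ha
    obtain ⟨c, hc, hac⟩ := hD.near a ha
    exact ⟨c, hDS hc, hac⟩
  have hseg : ∀ z ∈ segment ℝ p₀ (H w), dist z (H w) ≤ m / 8 := by
    intro z hz
    have : z ∈ closedBall (H w) (m / 8) :=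
      (convex_closedBall (H w) (m / 8)).segment_subset (mem_closedBall.2 hp₀)
        (mem_closedBall_self (by positivity)) hz
    exact this
  have hHwκ : H w ∈ κ₀ := ⟨w, Or.inl hwκ, rfl⟩
  set κ : Set ℂ := segment ℝ p₀ (H w) ∪ κ₀ with hκ
  have hκnear : ∀ z ∈ κ, ∃ c ∈ κ₀, dist z c ≤ m / 8 := by
    rintro z (hz | hz)
    · exact ⟨H w, hHwκ, hseg z hz⟩
    · exact ⟨z, hz, by rw [dist_self]; positivity⟩
  refine ⟨⟨κ, ?_⟩, ?_, ?_⟩
  · refine ⟨hw, hD.disj, ?_, ?_, ?_, ?_, ?_, ?_, ?_, ?_⟩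
    · intro a ha z hz
      obtain ⟨c, hc, hac⟩ := hGnear a ha
      rw [mem_closedBall] at hz
      refine hnorm (c := c) (t := 3 * ρ + r) (Or.inl hc) ?_ (by linarith)
      calc dist z c ≤ dist z a + dist a c := dist_triangle _ _ _
        _ ≤ 3 * ρ + r := by linarith
    · exact IsPreconnected.union _ (right_mem_segment ℝ p₀ (H w)) hHwκ
        (convex_segment _ _).isPreconnected hκ₀p
    · intro z hz
      obtain ⟨c, hc, hzc⟩ := hκnear z hz
      exact hnorm (c := c) (Or.inr hc) hzc (by linarith)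
    · refine hD.deep p₀ hp₀X ?_
      intro z hz
      refine d7 (H w) rfl z ?_
      rw [mem_ball] at hz
      calc dist z (H w) ≤ dist z p₀ + dist p₀ (H w) := dist_triangle _ _ _
        _ < δ₇ := by linarith
    · exact ⟨p₀, mem_vcell_self, Or.inl (left_mem_segment ℝ p₀ (H w))⟩
    · refine ⟨z₁, Or.inr ⟨_, Or.inr ⟨-1, left_mem_Icc.2 hle2, rfl⟩, rfl⟩, ?_⟩
      intro x hx
      obtain ⟨c, hc, hxc⟩ := hGnear x hx
      by_contra hcon
      push Not at hcon
      refine d3 z₁ rfl c ?_ hc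
      calc dist c z₁ ≤ dist c x + dist x z₁ := dist_triangle _ _ _
        _ < δ₃ := by rw [dist_comm c x, dist_comm x z₁]; linarith
    · intro x hx y hxy hyG hyκ
      obtain ⟨z, hz, hzy⟩ := hyκ
      obtain ⟨c, hc, hzc⟩ := hκnear z hz
      have : ∃ j, y ∈ O j := by
        by_contra hcon
        push Not at hcon
        exact hyG ⟨hxy.2.1, hcon⟩
      obtain ⟨j, hj⟩ := this
      by_cases hjk : j = k
      · rw [← hjk]; exact hj
      · exfalso
        obtain ⟨c', hc', hyc'⟩ := hD.arcs x hx j y hj hxy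
        refine d4 c hc c' ?_ (hCk j hjk hc')
        calc dist c' c ≤ dist c' y + dist y c := dist_triangle _ _ _
          _ ≤ dist c' y + (dist y z + dist z c) := by gcongr; exact dist_triangle _ _ _
          _ < δ₄ := by rw [dist_comm c' y, dist_comm y z]; linarith
    · intro x hx hxκ
      obtain ⟨z, hz, hzx⟩ := hxκ
      rcases hz with hz | ⟨z', hz', rfl⟩
      · left
        refine d5 (H w) ⟨w, hwκ, rfl⟩ x ?_
        have h1 := hseg z hz
        calc dist x (H w) ≤ dist x z + dist z (H w) := dist_triangle _ _ _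
          _ < δ₅ := by rw [dist_comm x z]; linarith
      · rcases hz' with hz' | hz'
        · left
          refine d5 (H z') ⟨z', hz', rfl⟩ x ?_
          rw [dist_comm]
          linarith
        · right
          have h1 : (H.symm x).im < -1 := d6 (H z') ⟨z', hz', rfl⟩ x (by rw [dist_comm]; linarith)
          exact h1.le
  · intro a ha z hz
    obtain ⟨c, hc, hac⟩ := hGnear a ha
    rw [mem_closedBall] at hz
    have h1 : |(H.symm z).re| < 1 := d1 c hc z (by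
      calc dist z c ≤ dist z a + dist a c := dist_triangle _ _ _
        _ < δ₁ := by linarith)
    exact h1.le
  · intro x hx v hv hxv
    obtain ⟨c, hc, hvc⟩ := hD.arcs x hx u v hv hxv
    have hxU : closedBall x (3 * ρ) ⊆ U := by
      intro z hz
      obtain ⟨c, hc, hac⟩ := hGnear x hx
      rw [mem_closedBall] at hz
      refine hnorm (c := c) (t := 3 * ρ + r) (Or.inl hc) ?_ (by linarith)
      calc dist z c ≤ dist z x + dist x c := dist_triangle _ _ _
        _ ≤ 3 * ρ + r := by linarith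
    have h1 := hw.dist_nbr hxU hxv
    have h2 := d2 c (hCu hc) x (by
      calc dist x c ≤ dist x v + dist v c := dist_triangle _ _ _
        _ < δ₂ := by linarith)
    exact ⟨le_of_lt h2.1, h2.2⟩

end Vale.Agent.P148.R2.H990
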