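import Vale.Agent.P148.R2.F.Obs
import Vale.Agent.P148.R2.H592.Dom7
import Vale.Agent.P148.R2.H990.QA
import Vale.Agent.P148.R2.H990.X9
import Vale.Agent.P148.R2.H990.X10

/-!
# P148, module X: the observables of the domains of the perturbed quads at the second marked point
-/

open MeasureTheory Set Metric Topology Filter ProbabilityTheory
open scoped ENNReal NNReal

namespace Vale.Agent.P148.R2.H990

open _root_.P148
open Vale.Agent.P148.R2.H592 (HullTri Fc vc tail head ConnIn CV Fib fib_cmap nbr vcell QDom arcQ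
  arcQ_eq sideA)
open Vale.Agent.P148.R2.H847 (qpr UArm Gf OutD TD qpr_mono qpr_or qpr_restrict)
open Vale.Agent.P148.R2.F (Dom qcross)

/-! ### outer darts -/

theorem z3_all' {P : ZMod 3 → Prop} (h0 : P 0) (h1 : P 1) (h2 : P 2) (j : ZMod 3) : P j := by
  have : ∀ j : ZMod 3, j = 0 ∨ j = 1 ∨ j = 2 := by decide
  rcases this j with rfl | rfl | rfl
  · exact h0
  · exact h1
  · exact h2

theorem z3n1 : ∀ j : ZMod 3, j + 1 ≠ j := by decide
theorem z3n2 : ∀ j : ZMod 3, j + 2 ≠ j := by decide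
theorem z3n21 : ∀ j : ZMod 3, j + 2 ≠ j + 1 := by decide

theorem outD (D : Dom) (j : ZMod 3) :
    OutD D.hull (fib_cmap D.disj D.conn D.ne) (D.oj j) j := by
  classical
  have hs : ∀ q : D.Dt, (TD D.hull (fib_cmap D.disj D.conn D.ne)).src q =
      H592.cmap D.X D.O (vc q.1 (q.2 + 1)) := fun q => rfl
  have ht : ∀ q : D.Dt, (TD D.hull (fib_cmap D.disj D.conn D.ne)).tgt q =
      H592.cmap D.X D.O (vc q.1 (q.2 + 2)) := fun q => D.tgt_eq q
  have ha : ∀ q : D.Dt, (TD D.hull (fib_cmap D.disj D.conn D.ne)).apex q =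
      H592.cmap D.X D.O (vc q.1 q.2) := fun q => D.apex_eq q
  have h0 : vc D.o.1 (D.o.2 + 2) ∈ D.O 0 := D.head_o
  have key : ∀ k l : ZMod 3, k ≠ j → l ≠ j → l ≠ k →
      vc (D.oj j).1 ((D.oj j).2 + 2) ∈ D.O j → vc (D.oj j).1 ((D.oj j).2 + 1) ∈ D.O k →
      vc (D.oj j).1 (D.oj j).2 ∈ D.O l → OutD D.hull (fib_cmap D.disj D.conn D.ne) (D.oj j) j := by
    intro k l hk hl hlk a1 a2 a3
    refine ⟨?_, k, hk, ?_, l, hl, hlk, ?_⟩
    · rw [ht, D.cmap_O a1]
    · rw [hs, D.cmap_O a2]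
    · rw [ha, D.cmap_O a3]
  rcases D.tail_o with ⟨h1, h2⟩ | ⟨h1, h2⟩
  · have h1' : vc D.o.1 (D.o.2 + 1) ∈ D.O 1 := h1
    have e : D.oj j = (D.o.1, D.o.2 + 2 * j) := by
      unfold Dom.oj
      rw [if_pos h1]
    refine key (j + 1) (j + 2) (z3n1 j) (z3n2 j) (z3n21 j) ?_ ?_ ?_
    · rw [e]
      show vc D.o.1 (D.o.2 + 2 * j + 2) ∈ D.O j
      refine z3_all' (P := fun j => vc D.o.1 (D.o.2 + 2 * j + 2) ∈ D.O j) ?_ ?_ ?_ j
      · rw [mul_zero, add_zero]; exact h0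
      · rw [show D.o.2 + 2 * 1 + 2 = D.o.2 + 1 from by generalize D.o.2 = a; revert a; decide]
        exact h1'
      · rw [show D.o.2 + 2 * 2 + 2 = D.o.2 from by generalize D.o.2 = a; revert a; decide]
        exact h2
    · rw [e]
      show vc D.o.1 (D.o.2 + 2 * j + 1) ∈ D.O (j + 1)
      refine z3_all' (P := fun j => vc D.o.1 (D.o.2 + 2 * j + 1) ∈ D.O (j + 1)) ?_ ?_ ?_ j
      · rw [mul_zero, add_zero]; exact h1'
      · rw [show D.o.2 + 2 * 1 + 1 = D.o.2 from by generalize D.o.2 = a; revert a; decide]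
        exact h2
      · rw [show D.o.2 + 2 * 2 + 1 = D.o.2 + 2 from by generalize D.o.2 = a; revert a; decide]
        exact h0
    · rw [e]
      show vc D.o.1 (D.o.2 + 2 * j) ∈ D.O (j + 2)
      refine z3_all' (P := fun j => vc D.o.1 (D.o.2 + 2 * j) ∈ D.O (j + 2)) ?_ ?_ ?_ j
      · rw [mul_zero, add_zero]; exact h2
      · rw [show D.o.2 + 2 * 1 = D.o.2 + 2 from by generalize D.o.2 = a; revert a; decide]
        exact h0
      · rw [show D.o.2 + 2 * 2 = D.o.2 + 1 from by generalize D.o.2 = a; revert a; decide]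
        exact h1'
  · have h1' : vc D.o.1 (D.o.2 + 1) ∈ D.O 2 := h1
    have hn : tail D.o ∉ D.O 1 := fun hh => Set.disjoint_left.1 (D.disj
      (show (1 : ZMod 3) ≠ 2 by decide)) hh h1
    have e : D.oj j = (D.o.1, D.o.2 + j) := by
      unfold Dom.oj
      rw [if_neg hn]
    refine key (j + 2) (j + 1) (z3n2 j) (z3n1 j) (z3n21 j).symm ?_ ?_ ?_
    · rw [e]
      show vc D.o.1 (D.o.2 + j + 2) ∈ D.O j
      refine z3_all' (P := fun j => vc D.o.1 (D.o.2 + j + 2) ∈ D.O j) ?_ ?_ ?_ j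
      · rw [add_zero]; exact h0
      · rw [show D.o.2 + 1 + 2 = D.o.2 from by generalize D.o.2 = a; revert a; decide]
        exact h2
      · rw [show D.o.2 + 2 + 2 = D.o.2 + 1 from by generalize D.o.2 = a; revert a; decide]
        exact h1'
    · rw [e]
      show vc D.o.1 (D.o.2 + j + 1) ∈ D.O (j + 2)
      refine z3_all' (P := fun j => vc D.o.1 (D.o.2 + j + 1) ∈ D.O (j + 2)) ?_ ?_ ?_ j
      · rw [add_zero]; exact h1'
      · rw [show D.o.2 + 1 + 1 = D.o.2 + 2 from by generalize D.o.2 = a; revert a; decide]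
        exact h0
      · rw [show D.o.2 + 2 + 1 = D.o.2 from by generalize D.o.2 = a; revert a; decide]
        exact h2
    · rw [e]
      show vc D.o.1 (D.o.2 + j) ∈ D.O (j + 1)
      refine z3_all' (P := fun j => vc D.o.1 (D.o.2 + j) ∈ D.O (j + 1)) ?_ ?_ ?_ j
      · rw [add_zero]; exact h2
      · exact h1'
      · exact h0

/-! ### helper592's domains -/

theorem isCompact_arcQ (Q : Quad) (j : ZMod 3) : IsCompact (arcQ Q j) :=
  z3_all' (P := fun j => IsCompact (arcQ Q j)) ((Q.isCompact_arc 0).union (Q.isCompact_arc 1))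
    (Q.isCompact_arc 2) (Q.isCompact_arc 3) j

theorem nonempty_arcQ (Q : Quad) (j : ZMod 3) : (arcQ Q j).Nonempty := by
  rw [arcQ_eq]
  exact ⟨_, _, H592.cornC_mem j, rfl⟩

theorem domI_of_qdom {Q : Quad} {r : ℝ} {X : Set ℂ} {b : ZMod 3 → ℂ} {O : ZMod 3 → Set ℂ}
    (h : QDom Q r X b O) : DomI Q.D (arcQ Q) X O r where
  disj := h.disj
  deep x hx hb := by
    have := h.deep x hx hb
    simp only [mem_iUnion, not_exists] at this
    exact ⟨hx, this⟩
  near x hx := by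
    have h1 := h.near x hx.1 (by simpa only [mem_iUnion, not_exists] using hx.2)
    have hne : (closure Q.D).Nonempty := by
      rw [Q.closure_D]
      exact ⟨_, 0, ⟨by simp, by simp⟩, rfl⟩
    obtain ⟨c, hc, hd⟩ := Q.isCompact_closure_D.exists_infDist_eq_dist hne x
    rw [infDist_closure] at hd
    exact ⟨c, hc, by rw [← hd]; exact h1⟩
  arcs x hx j y hy hxy := by
    have h1 := h.arc x hx.1 (by simpa only [mem_iUnion, not_exists] using hx.2) y hxy j hy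
    obtain ⟨c, hc, hd⟩ := (isCompact_arcQ Q j).exists_infDist_eq_dist (nonempty_arcQ Q j) y
    exact ⟨c, hc, by rw [← hd]; exact h1⟩

/-! ### the perturbed quads -/

theorem QA_D (Q : Quad) (n : ℕ) :
    (QA Q n).D = Q.H '' {z | |z.re| < 1 - sn n ∧ |z.im| < 1 + sn n} := by
  have hs := sn_pos n
  have hs1 := sn_le n
  unfold Quad.D
  ext y
  constructor
  · rintro ⟨z, ⟨h1, h2⟩, rfl⟩
    refine ⟨_, ⟨?_, ?_⟩, (QA_H Q n z).symm⟩
    · show |(1 - sn n) * z.re| < 1 - sn n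
      rw [abs_mul, abs_of_pos (by linarith : 0 < 1 - sn n)]
      nlinarith
    · show |(1 + sn n) * z.im| < 1 + sn n
      rw [abs_mul, abs_of_pos (by linarith : 0 < 1 + sn n)]
      nlinarith
  · rintro ⟨z, ⟨h1, h2⟩, rfl⟩
    have n1 : 0 < 1 - sn n := by linarith
    have n2 : 0 < 1 + sn n := by linarith
    refine ⟨⟨(1 - sn n)⁻¹ * z.re, (1 + sn n)⁻¹ * z.im⟩, ⟨?_, ?_⟩, ?_⟩
    · show |(1 - sn n)⁻¹ * z.re| < 1
      rw [abs_mul, abs_of_pos (inv_pos.2 n1), inv_mul_lt_iff₀ n1, mul_one]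
      exact h1
    · show |(1 + sn n)⁻¹ * z.im| < 1
      rw [abs_mul, abs_of_pos (inv_pos.2 n2), inv_mul_lt_iff₀ n2, mul_one]
      exact h2
    · rw [QA_H]
      congr 1
      apply Complex.ext
      · show (1 - sn n) * ((1 - sn n)⁻¹ * z.re) = z.re
        field_simp
      · show (1 + sn n) * ((1 + sn n)⁻¹ * z.im) = z.im
        field_simp

theorem QA'_D (Q : Quad) (n : ℕ) :
    (QA' Q n).D = Q.H '' {z | |z.re| < 1 + sn n ∧ |z.im| < 1 - sn n} := by
  have hs := sn_pos n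
  have hs1 := sn_le n
  unfold Quad.D
  ext y
  constructor
  · rintro ⟨z, ⟨h1, h2⟩, rfl⟩
    refine ⟨_, ⟨?_, ?_⟩, (QA'_H Q n z).symm⟩
    · show |(1 + sn n) * z.re| < 1 + sn n
      rw [abs_mul, abs_of_pos (by linarith : 0 < 1 + sn n)]
      nlinarith
    · show |(1 - sn n) * z.im| < 1 - sn n
      rw [abs_mul, abs_of_pos (by linarith : 0 < 1 - sn n)]
      nlinarith
  · rintro ⟨z, ⟨h1, h2⟩, rfl⟩
    have n1 : 0 < 1 - sn n := by linarith
    have n2 : 0 < 1 + sn n := by linarith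
    refine ⟨⟨(1 + sn n)⁻¹ * z.re, (1 - sn n)⁻¹ * z.im⟩, ⟨?_, ?_⟩, ?_⟩
    · show |(1 + sn n)⁻¹ * z.re| < 1
      rw [abs_mul, abs_of_pos (inv_pos.2 n2), inv_mul_lt_iff₀ n2, mul_one]
      exact h1
    · show |(1 - sn n)⁻¹ * z.im| < 1
      rw [abs_mul, abs_of_pos (inv_pos.2 n1), inv_mul_lt_iff₀ n1, mul_one]
      exact h2
    · rw [QA'_H]
      congr 1
      apply Complex.ext
      · show (1 + sn n) * ((1 + sn n)⁻¹ * z.re) = z.re
        field_simp
      · show (1 - sn n) * ((1 - sn n)⁻¹ * z.im) = z.im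
        field_simp

/-- The reflection `x + iy ↦ -y - ix`, which fixes the second corner. -/
noncomputable def rf : ℂ ≃ₜ ℂ where
  toFun z := ⟨-z.im, -z.re⟩
  invFun z := ⟨-z.im, -z.re⟩
  left_inv z := by apply Complex.ext <;> simp
  right_inv z := by apply Complex.ext <;> simp
  continuous_toFun := by
    have h : (fun z : ℂ => (⟨-z.im, -z.re⟩ : ℂ)) =
        fun z : ℂ => ((-z.im : ℝ) : ℂ) + ((-z.re : ℝ) : ℂ) * Complex.I := by
      funext z
      apply Complex.ext <;> simp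
    rw [h]
    fun_prop
  continuous_invFun := by
    have h : (fun z : ℂ => (⟨-z.im, -z.re⟩ : ℂ)) =
        fun z : ℂ => ((-z.im : ℝ) : ℂ) + ((-z.re : ℝ) : ℂ) * Complex.I := by
      funext z
      apply Complex.ext <;> simp
    rw [h]
    fun_prop

theorem rf_apply (z : ℂ) : rf z = ⟨-z.im, -z.re⟩ := rfl

theorem rf_symm_apply (z : ℂ) : rf.symm z = ⟨-z.im, -z.re⟩ := rfl

/-- The point near the second corner. -/
noncomputable def wn (n : ℕ) : ℂ := ⟨1 - 2 * sn n, -1 + 2 * sn n⟩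

theorem rf_wn (n : ℕ) : rf (wn n) = wn n := by
  rw [rf_apply]
  apply Complex.ext
  · show -(-1 + 2 * sn n) = 1 - 2 * sn n
    ring
  · show -(1 - 2 * sn n) = -1 + 2 * sn n
    ring

theorem dist_le_coord (w z : ℂ) {c : ℝ} (h1 : |w.re - z.re| ≤ c) (h2 : |w.im - z.im| ≤ c) :
    dist w z ≤ 2 * c := by
  rw [Complex.dist_eq]
  refine (Complex.norm_le_abs_re_add_abs_im _).trans ?_
  simp only [Complex.sub_re, Complex.sub_im]
  linarith

/-- The geometry for the homeomorphism `H` at scale `n`. -/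
theorem xcore (H : ℂ ≃ₜ ℂ) {B : Set ℂ} (hB : IsOpen B)
    (hBH : ∀ z : ℂ, |z.re| ≤ 1 → 1 ≤ z.im → z.im ≤ 2 → H z ∈ B) (n : ℕ) :
    ∃ r₁ > 0, ∃ R : ℝ, ∀ (X Y U : Set ℂ) (ρ r : ℝ) (O C : ZMod 3 → Set ℂ) (k u : ZMod 3) (p₀ : ℂ),
      Win X Y U ρ → ρ ≤ r₁ → r ≤ r₁ → closedBall 0 R ⊆ U →
      DomI (H '' {z | |z.re| < 1 - sn n ∧ |z.im| < 1 + sn n}) C X O r →
      (∀ j, j ≠ k → C j ⊆ H '' {z | z.im = -(1 + sn n) ∨ z.re = 1 - sn n ∨ z.im = 1 + sn n}) →
      (C u ⊆ H '' {z | |z.re| ≤ 1 - sn n ∧ z.im = 1 + sn n}) → p₀ ∈ X → dist p₀ (H (wn n)) ≤ r₁ →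
      (∃ κ, Geo X Y U ρ O k κ (H '' ball (corner 1) (6 * sn n)) {x | (H.symm x).im ≤ -1} p₀) ∧
      (∀ a ∈ Gf X O, ∀ z ∈ closedBall a ρ, |(H.symm z).re| ≤ 1) ∧
      ∀ x ∈ Gf X O, ∀ v ∈ O u, nbr X x v → 1 ≤ (H.symm x).im ∧ x ∈ B := by
  have hs := sn_pos n
  have hs1 := sn_le n
  refine geoMain H hs (by linarith) (w := wn n) ?_ ?_ ?_ ?_ ?_ ?_ hB ?_
  · show -(1 - sn n) < 1 - 2 * sn n
    linarith
  · show 1 - 2 * sn n < 1 - sn n
    linarith
  · show -1 < -1 + 2 * sn n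
    linarith
  · show -1 + 2 * sn n < 1
    linarith
  · exact H.isOpenMap _ isOpen_ball
  · intro t ht
    refine ⟨_, ?_, rfl⟩
    rw [mem_ball]
    have h1 : -1 - sn n / 2 ≤ t := ht.1
    have h2 : t ≤ -1 + 2 * sn n := ht.2
    refine (dist_le_coord _ _ (c := 2 * sn n) ?_ ?_).trans_lt (by linarith)
    · show |(1 - 2 * sn n) - 1| ≤ 2 * sn n
      rw [abs_le]
      constructor <;> linarith
    · show |t - (-1)| ≤ 2 * sn n
      rw [abs_le]
      constructor <;> linarith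
  · intro z h1 h2
    exact hBH z (by linarith) (by rw [h2]; linarith) (by rw [h2]; linarith)

end Vale.Agent.P148.R2.H990
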