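import Vale.Agent.P148.Colours2
import Vale.Agent.P148.R2.H990.X11

/-!
# P148, module X: the inequality of `XStmt` for the domains of the perturbed quads
-/

open MeasureTheory Set Metric Topology Filter ProbabilityTheory
open scoped ENNReal NNReal

namespace Vale.Agent.P148.R2.H990

open _root_.P148
open _root_.P148.H729 (OneCol)
open Vale.Agent.P148.R2.H592 (HullTri Fc vc tail head ConnIn CV Fib fib_cmap nbr vcell QDom arcQ
  arcQ_eq sideA)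
open Vale.Agent.P148.R2.H847 (qpr UArm Gf OutD TD qpr_mono qpr_or qpr_restrict)
open Vale.Agent.P148.R2.F (Dom qcross whp whp_of_le whp_of_ae tendsto_inten ArmStmt)

universe u

theorem side_cases (i : Fin 4) {z : ℂ} (hz : z ∈ side i) :
    (i = 0 ∧ |z.re| ≤ 1 ∧ z.im = -1) ∨ (i = 1 ∧ z.re = 1 ∧ |z.im| ≤ 1) ∨
      (i = 2 ∧ |z.re| ≤ 1 ∧ z.im = 1) ∨ (i = 3 ∧ z.re = -1 ∧ |z.im| ≤ 1) := by
  fin_cases i
  · exact Or.inl ⟨rfl, hz⟩
  · exact Or.inr (Or.inl ⟨rfl, hz⟩)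
  · exact Or.inr (Or.inr (Or.inl ⟨rfl, hz⟩))
  · exact Or.inr (Or.inr (Or.inr ⟨rfl, hz⟩))

theorem arcQA_lines (Q : Quad) (n : ℕ) (j : ZMod 3) (hj : j ≠ 2) :
    arcQ (QA Q n) j ⊆ Q.H '' {z | z.im = -(1 + sn n) ∨ z.re = 1 - sn n ∨ z.im = 1 + sn n} := by
  have h01 : j = 0 ∨ j = 1 := by revert j; decide
  rcases h01 with rfl | rfl
  · rintro _ (⟨z, hz, rfl⟩ | ⟨z, hz, rfl⟩)
    · refine ⟨_, ?_, (QA_H Q n z).symm⟩
      left
      show (1 + sn n) * z.im = _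
      rw [hz.2]; ring
    · refine ⟨_, ?_, (QA_H Q n z).symm⟩
      right; left
      show (1 - sn n) * z.re = _
      rw [hz.1]; ring
  · rintro _ ⟨z, hz, rfl⟩
    refine ⟨_, ?_, (QA_H Q n z).symm⟩
    right; right
    show (1 + sn n) * z.im = _
    rw [hz.2]; ring

theorem arcQA_top (Q : Quad) (n : ℕ) :
    arcQ (QA Q n) 1 ⊆ Q.H '' {z | |z.re| ≤ 1 - sn n ∧ z.im = 1 + sn n} := by
  have hs1 := sn_le n
  rintro _ ⟨z, hz, rfl⟩
  refine ⟨_, ⟨?_, ?_⟩, (QA_H Q n z).symm⟩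
  · show |(1 - sn n) * z.re| ≤ 1 - sn n
    rw [abs_mul, abs_of_pos (by linarith : 0 < 1 - sn n)]
    have : |z.re| ≤ 1 := hz.1
    nlinarith
  · show (1 + sn n) * z.im = _
    rw [hz.2]; ring

theorem QA'_Drf (Q : Quad) (n : ℕ) :
    (QA' Q n).D = (rf.trans Q.H) '' {z | |z.re| < 1 - sn n ∧ |z.im| < 1 + sn n} := by
  rw [QA'_D]
  ext y
  constructor
  · rintro ⟨z, ⟨h1, h2⟩, rfl⟩
    refine ⟨rf z, ⟨?_, ?_⟩, ?_⟩
    · show |-z.im| < _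
      rw [abs_neg]; exact h2
    · show |-z.re| < _
      rw [abs_neg]; exact h1
    · show Q.H (rf (rf z)) = Q.H z
      congr 1
      exact rf.left_inv z
  · rintro ⟨z, ⟨h1, h2⟩, rfl⟩
    refine ⟨rf z, ⟨?_, ?_⟩, rfl⟩
    · show |-z.im| < _
      rw [abs_neg]; exact h2
    · show |-z.re| < _
      rw [abs_neg]; exact h1

theorem rfH (Q : Quad) (x y : ℝ) : (rf.trans Q.H) ⟨x, y⟩ = Q.H ⟨-y, -x⟩ := rfl

theorem arcQA'_lines (Q : Quad) (n : ℕ) (j : ZMod 3) (hj : j ≠ 1) :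
    arcQ (QA' Q n) j ⊆
      (rf.trans Q.H) '' {z | z.im = -(1 + sn n) ∨ z.re = 1 - sn n ∨ z.im = 1 + sn n} := by
  have h01 : j = 0 ∨ j = 2 := by revert j; decide
  rcases h01 with rfl | rfl
  · rintro _ (⟨z, hz, rfl⟩ | ⟨z, hz, rfl⟩)
    · refine ⟨⟨-((1 - sn n) * z.im), -((1 + sn n) * z.re)⟩, ?_, ?_⟩
      · right; left
        show -((1 - sn n) * z.im) = _
        rw [hz.2]; ring
      · rw [rfH, QA'_H, neg_neg, neg_neg]
    · refine ⟨⟨-((1 - sn n) * z.im), -((1 + sn n) * z.re)⟩, ?_, ?_⟩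
      · left
        show -((1 + sn n) * z.re) = _
        rw [hz.1]; ring
      · rw [rfH, QA'_H, neg_neg, neg_neg]
  · rintro _ ⟨z, hz, rfl⟩
    refine ⟨⟨-((1 - sn n) * z.im), -((1 + sn n) * z.re)⟩, ?_, ?_⟩
    · right; right
      show -((1 + sn n) * z.re) = _
      rw [hz.1]; ring
    · rw [rfH, QA'_H, neg_neg, neg_neg]

theorem arcQA'_left (Q : Quad) (n : ℕ) :
    arcQ (QA' Q n) 2 ⊆ (rf.trans Q.H) '' {z | |z.re| ≤ 1 - sn n ∧ z.im = 1 + sn n} := by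
  have hs1 := sn_le n
  rintro _ ⟨z, hz, rfl⟩
  refine ⟨⟨-((1 - sn n) * z.im), -((1 + sn n) * z.re)⟩, ⟨?_, ?_⟩, ?_⟩
  · show |-((1 - sn n) * z.im)| ≤ _
    rw [abs_neg, abs_mul, abs_of_pos (by linarith : 0 < 1 - sn n)]
    have : |z.im| ≤ 1 := hz.2
    nlinarith
  · show -((1 + sn n) * z.re) = _
    rw [hz.1]; ring
  · rw [rfH, QA'_H, neg_neg, neg_neg]

/-- Bookkeeping common to the two cases: a free site near `z`, and the nearest one. -/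
theorem near_dart {D : Dom} {Y : Set ℂ} {R ρ : ℝ} {z : ℂ} (hw : Win D.X Y (closedBall 0 R) ρ)
    (hz : z ∈ closedBall (0 : ℂ) R) (hfree : ∀ x ∈ D.X, dist x z ≤ ρ → x ∈ Gf D.X D.O) :
    ∃ q : D.Dt, tail q ∈ D.X ∧ dist (tail q) z ≤ ρ ∧ ∀ j : Fin 3, D.Hz j z = D.H j q := by
  obtain ⟨x, hx, hxz⟩ := hw.net z hz
  have hxf : D.Free x := hfree x hx (by rw [dist_comm]; exact hxz)
  obtain ⟨q, hq, hH⟩ := D.Hz_spec hxf z
  exact ⟨q, hq.1.1, by rw [dist_comm]; exact (hq.2 x hxf).trans hxz, hH⟩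

/-- **Deterministic inequality, `ab`–`cd`.** -/
theorem xdet02 (Q : Quad) {B : Set ℂ} (hB : IsOpen B)
    (hBH : ∀ z : ℂ, |z.re| ≤ 1 → 1 ≤ z.im → z.im ≤ 2 → Q.H z ∈ B) {R₂ : ℝ} (n : ℕ)
    (hR₂ : ∀ z : ℂ, |z.re| ≤ 2 → |z.im| ≤ 2 → ‖Q.H z‖ < R₂ - 1) :
    ∃ r₁ > 0, ∃ R₁ : ℝ, ∀ (D : Dom) (Y : Set ℂ) (ρ r : ℝ), r ≤ r₁ → ρ ≤ r₁ →
      QDom (QA Q n) r D.X D.b D.O → Win D.X Y (closedBall 0 R₁) ρ →
      (Y ∩ ball 0 R₂).Finite →
      D.Hz 2 (Q.H (wn n)) ≤ qpr (Y ∩ ball 0 R₂) (fun W => Q.Cross 0 2 (⋃ v ∈ W, vcell Y v)) +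
        qpr (Y ∩ ball 0 R₂) (fun W => UArm Y W (Q.H '' ball (corner 1) (6 * sn n)) B) := by
  have hs := sn_pos n
  have hs1 := sn_le n
  obtain ⟨r₁, hr₁, R₁, hcore⟩ := xcore Q.H hB hBH n
  refine ⟨min r₁ 1, lt_min hr₁ one_pos, max (max R₁ R₂) ‖Q.H (wn n)‖, ?_⟩
  intro D Y ρ r hr hρ hQ hw hfin
  have hD := domI_of_qdom hQ
  rw [QA_D] at hD
  have hU : closedBall (0 : ℂ) R₁ ⊆ closedBall 0 (max (max R₁ R₂) ‖Q.H (wn n)‖) :=
    closedBall_subset_closedBall ((le_max_left _ _).trans (le_max_left _ _))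
  have hzU : Q.H (wn n) ∈ closedBall (0 : ℂ) (max (max R₁ R₂) ‖Q.H (wn n)‖) := by
    rw [mem_closedBall, dist_zero_right]
    exact le_max_right _ _
  have hap := fun (p₀ : ℂ) (h1 : p₀ ∈ D.X) (h2 : dist p₀ (Q.H (wn n)) ≤ r₁) =>
    hcore D.X Y _ ρ r D.O (arcQ (QA Q n)) 2 1 p₀ hw (hρ.trans (min_le_left _ _))
      (hr.trans (min_le_left _ _)) hU hD (fun j hj => arcQA_lines Q n j hj) (arcQA_top Q n) h1 h2
  have hρ1 : ρ ≤ r₁ := hρ.trans (min_le_left _ _)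
  obtain ⟨q, hqX, hqz, hH⟩ := near_dart hw hzU (fun x hx hxz => by
    obtain ⟨⟨κ, hG⟩, -⟩ := hap x hx (hxz.trans hρ1)
    exact hG.start)
  obtain ⟨⟨κ, hG⟩, hre, hfar⟩ := hap (tail q) hqX (hqz.trans hρ1)
  have hmain := @HH_le_cross02 D.X Y _ ρ D.b D.hull D.O (fib_cmap D.disj D.conn D.ne)
    (inferInstance : Fintype D.V) Q κ _ B (D.oj 2) q 2 1 (outD D 2) (by decide) hG hre hfar
  rw [hH 2]
  refine hmain.trans ?_
  refine qpr_le_of_mono hfin ?_ ?_ ?_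
  · intro x hx
    obtain ⟨c, hc, hxc⟩ := hD.near x hx
    have hc' : c ∈ Q.H '' {z | |z.re| ≤ 1 - sn n ∧ |z.im| ≤ 1 + sn n} := by
      refine closure_minimal (image_mono ?_) ((isCompact_box _ _).image Q.H.continuous).isClosed hc
      rintro z ⟨h1, h2⟩
      exact ⟨h1.le, h2.le⟩
    obtain ⟨z, ⟨hz1, hz2⟩, rfl⟩ := hc'
    have h1 := hR₂ z (by linarith) (by linarith)
    have hxn : ‖x‖ < R₂ := by
      rw [Complex.dist_eq] at hxc
      have h2 : ‖x‖ ≤ ‖x - Q.H z‖ + ‖Q.H z‖ := by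
        have := norm_add_le (x - Q.H z) (Q.H z)
        rwa [sub_add_cancel] at this
      have h3 : r ≤ 1 := hr.trans (min_le_right _ _)
      linarith
    refine ⟨(hw.iff x ?_).1 hx.1, mem_ball_zero_iff.2 hxn⟩
    rw [mem_closedBall, dist_zero_right]
    exact hxn.le.trans ((le_max_right _ _).trans (le_max_left _ _))
  · intro W W' hWW h
    exact cross_mono (biUnion_subset_biUnion_left hWW) h
  · intro W W' hWW h
    exact PArm.mono hWW h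

/-- **Deterministic inequality, `bc`–`da`.** -/
theorem xdet13 (Q : Quad) {B : Set ℂ} (hB : IsOpen B)
    (hBH : ∀ z : ℂ, |z.re| ≤ 1 → 1 ≤ z.im → z.im ≤ 2 → (rf.trans Q.H) z ∈ B) {R₂ : ℝ} (n : ℕ)
    (hR₂ : ∀ z : ℂ, |z.re| ≤ 2 → |z.im| ≤ 2 → ‖Q.H z‖ < R₂ - 1) :
    ∃ r₁ > 0, ∃ R₁ : ℝ, ∀ (D : Dom) (Y : Set ℂ) (ρ r : ℝ), r ≤ r₁ → ρ ≤ r₁ →
      QDom (QA' Q n) r D.X D.b D.O → Win D.X Y (closedBall 0 R₁) ρ →
      (Y ∩ ball 0 R₂).Finite →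
      D.Hz 1 (Q.H (wn n)) ≤ qpr (Y ∩ ball 0 R₂) (fun W => Q.Cross 1 3 (⋃ v ∈ W, vcell Y v)) +
        qpr (Y ∩ ball 0 R₂)
          (fun W => UArm Y W ((rf.trans Q.H) '' ball (corner 1) (6 * sn n)) B) := by
  have hs := sn_pos n
  have hs1 := sn_le n
  obtain ⟨r₁, hr₁, R₁, hcore⟩ := xcore (rf.trans Q.H) hB hBH n
  have hwn : (rf.trans Q.H) (wn n) = Q.H (wn n) := by
    show Q.H (rf (wn n)) = _
    rw [rf_wn]
  rw [hwn] at hcore
  have hsym : ∀ x : ℂ, (rf.trans Q.H).symm x = ⟨-(Q.H.symm x).im, -(Q.H.symm x).re⟩ := fun _ => rfl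
  refine ⟨min r₁ 1, lt_min hr₁ one_pos, max (max R₁ R₂) ‖Q.H (wn n)‖, ?_⟩
  intro D Y ρ r hr hρ hQ hw hfin
  have hD := domI_of_qdom hQ
  rw [QA'_Drf] at hD
  have hU : closedBall (0 : ℂ) R₁ ⊆ closedBall 0 (max (max R₁ R₂) ‖Q.H (wn n)‖) :=
    closedBall_subset_closedBall ((le_max_left _ _).trans (le_max_left _ _))
  have hzU : Q.H (wn n) ∈ closedBall (0 : ℂ) (max (max R₁ R₂) ‖Q.H (wn n)‖) := by
    rw [mem_closedBall, dist_zero_right]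
    exact le_max_right _ _
  have hap := fun (p₀ : ℂ) (h1 : p₀ ∈ D.X) (h2 : dist p₀ (Q.H (wn n)) ≤ r₁) =>
    hcore D.X Y _ ρ r D.O (arcQ (QA' Q n)) 1 2 p₀ hw (hρ.trans (min_le_left _ _))
      (hr.trans (min_le_left _ _)) hU hD (fun j hj => arcQA'_lines Q n j hj) (arcQA'_left Q n) h1 h2
  have hρ1 : ρ ≤ r₁ := hρ.trans (min_le_left _ _)
  obtain ⟨q, hqX, hqz, hH⟩ := near_dart hw hzU (fun x hx hxz => by
    obtain ⟨⟨κ, hG⟩, -⟩ := hap x hx (hxz.trans hρ1)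
    exact hG.start)
  obtain ⟨⟨κ, hG⟩, hre, hfar⟩ := hap (tail q) hqX (hqz.trans hρ1)
  have hG' : Geo D.X Y (closedBall 0 (max (max R₁ R₂) ‖Q.H (wn n)‖)) ρ D.O 1 κ
      ((rf.trans Q.H) '' ball (corner 1) (6 * sn n)) {x | 1 ≤ (Q.H.symm x).re} (tail q) := by
    have : {x : ℂ | ((rf.trans Q.H).symm x).im ≤ -1} = {x | 1 ≤ (Q.H.symm x).re} := by
      ext x
      rw [mem_ofPred_eq, mem_ofPred_eq, hsym]
      show -(Q.H.symm x).re ≤ -1 ↔ _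
      rw [neg_le_neg_iff]
    rw [this] at hG
    exact hG
  have hmain := @HH_le_cross13 D.X Y _ ρ D.b D.hull D.O (fib_cmap D.disj D.conn D.ne)
    (inferInstance : Fintype D.V) Q κ _ B (D.oj 1) q 1 2 (outD D 1) (by decide) hG'
    (fun a ha z hz => by
      have := hre a ha z hz
      rw [hsym] at this
      rwa [abs_neg] at this) (fun x hx v hv hxv => by
      have := hfar x hx v hv hxv
      rw [hsym] at this
      refine ⟨?_, this.2⟩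
      have h1 : 1 ≤ -(Q.H.symm x).re := this.1
      linarith)
  rw [hH 1]
  refine hmain.trans ?_
  refine qpr_le_of_mono hfin ?_ ?_ ?_
  · intro x hx
    obtain ⟨c, hc, hxc⟩ := hD.near x hx
    have hc' : c ∈ (rf.trans Q.H) '' {z | |z.re| ≤ 1 - sn n ∧ |z.im| ≤ 1 + sn n} := by
      refine closure_minimal (image_mono ?_)
        ((isCompact_box _ _).image (rf.trans Q.H).continuous).isClosed hc
      rintro z ⟨h1, h2⟩
      exact ⟨h1.le, h2.le⟩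
    obtain ⟨z, ⟨hz1, hz2⟩, rfl⟩ := hc'
    have h1 := hR₂ (rf z) (by
      show |-z.im| ≤ 2
      rw [abs_neg]; linarith) (by
      show |-z.re| ≤ 2
      rw [abs_neg]; linarith)
    have hxn : ‖x‖ < R₂ := by
      rw [Complex.dist_eq] at hxc
      have h2 : ‖x‖ ≤ ‖x - (rf.trans Q.H) z‖ + ‖(rf.trans Q.H) z‖ := by
        have := norm_add_le (x - (rf.trans Q.H) z) ((rf.trans Q.H) z)
        rwa [sub_add_cancel] at this
      have h3 : r ≤ 1 := hr.trans (min_le_right _ _)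
      have h4 : ‖(rf.trans Q.H) z‖ < R₂ - 1 := h1
      linarith
    refine ⟨(hw.iff x ?_).1 hx.1, mem_ball_zero_iff.2 hxn⟩
    rw [mem_closedBall, dist_zero_right]
    exact hxn.le.trans ((le_max_right _ _).trans (le_max_left _ _))
  · intro W W' hWW h
    exact cross_mono (biUnion_subset_biUnion_left hWW) h
  · intro W W' hWW h
    exact PArm.mono hWW h

end Vale.Agent.P148.R2.H990
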