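import Vale.Agent.P148.R2.H990.X12

/-!
# P148, module X: the inequality of `XStmt`, with high probability
-/

open MeasureTheory Set Metric Topology Filter ProbabilityTheory
open scoped ENNReal NNReal

namespace Vale.Agent.P148.R2.H990

open _root_.P148
open _root_.P148.H729 (OneCol)
open Vale.Agent.P148.R2.H592 (nbr vcell QDom arcQ)
open Vale.Agent.P148.R2.H847 (qpr UArm Gf OutD TD qpr_mono qpr_or qpr_restrict)
open Vale.Agent.P148.R2.F (Dom qcross whp whp_of_le whp_of_ae tendsto_inten ArmStmt)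

universe u

theorem whp_oneCol : ∀ᶠ m in whp.{u}, OneCol m.2 :=
  whp_of_ae (A := fun _ T => OneCol T) fun _ _ _ _ _ _ _ hS =>
    Eventually.of_forall fun ω => hS.oneColour ω

theorem whp_finite (R : ℝ) : ∀ᶠ m in whp.{u}, (pts m.2 ∩ ball 0 R).Finite :=
  whp_of_ae (A := fun _ T => (pts T ∩ ball 0 R).Finite) fun _ _ _ _ _ _ _ hS =>
    Eventually.of_forall fun ω => H729.finite_pts hS isBounded_ball ω

theorem whp_white (R : ℝ) : ∀ᶠ m in whp.{u}, ∃ v, v ∉ ball (0 : ℂ) R ∧ (v, false) ∈ m.2 := by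
  set w : ℂ := ((|R| + 2 : ℝ) : ℂ) with hw
  set A : Set Pt := ball w 1 ×ˢ ({false} : Set Bool) with hA
  have hbd : Bdd A := by
    obtain ⟨r, hr⟩ := (isBounded_ball (x := w) (r := 1)).subset_ball (0 : ℂ)
    exact ⟨r, prod_mono hr (subset_univ _)⟩
  have hm : MeasurableSet A := measurableSet_ball.prod (MeasurableSet.of_discrete)
  have hi : ∀ lam : ℝ≥0, (inten lam A).toReal = lam * (Real.pi / 2) := by
    intro lam
    rw [hA, KP2.inten_prod_singleton, Complex.volume_ball]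
    simp only [ENNReal.toReal_mul, ENNReal.toReal_pow, ENNReal.coe_toReal, ENNReal.toReal_inv,
      ENNReal.toReal_ofNat]
    rw [ENNReal.toReal_ofReal zero_le_one]
    have : ((NNReal.pi : ℝ≥0) : ℝ) = Real.pi := rfl
    rw [this]
    ring
  refine whp_of_le (A := fun _ T => ∃ v, v ∉ ball (0 : ℂ) R ∧ (v, false) ∈ T)
    (fun ε => ENNReal.ofReal (Real.exp (-((Real.toNNReal (ε ^ (-2 : ℤ)) : ℝ≥0) *
      (Real.pi / 2))))) ?_ ?_
  · rw [← ENNReal.ofReal_zero]
    refine ENNReal.tendsto_ofReal ?_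
    have h1 : Tendsto (fun ε : ℝ => ((Real.toNNReal (ε ^ (-2 : ℤ)) : ℝ≥0) : ℝ) *
        (Real.pi / 2)) (𝓝[>] 0) atTop := by
      refine Tendsto.atTop_mul_const (by positivity) ?_
      refine tendsto_inten.congr' ?_
      filter_upwards [self_mem_nhdsWithin] with ε hε
      have : (0 : ℝ) < ε := hε
      rw [Real.coe_toNNReal _ (by positivity)]
    exact Real.tendsto_exp_neg_atTop_nhds_zero.comp h1
  · refine Eventually.of_forall fun ε Ω _ P _ S hS => ?_
    refine (measure_mono ?_).trans ((H729.void_prob' hS hm hbd).le.trans (by rw [hi]))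
    intro ω hω
    show S ω ∩ A = ∅
    rw [Set.eq_empty_iff_forall_notMem]
    rintro ⟨v, c⟩ ⟨hv, hvb, hc⟩
    rw [mem_singleton_iff] at hc
    have hc' : c = false := hc
    subst hc'
    refine hω ⟨v, ?_, hv⟩
    intro hvR
    have h1 : dist v w < 1 := hvb
    have h2 : dist v 0 < R := hvR
    have h3 : dist w 0 ≤ dist v w + dist v 0 := by
      rw [dist_comm v w]; exact dist_triangle _ _ _
    have h4 : dist w 0 = |R| + 2 := by
      rw [hw, dist_zero_right, Complex.norm_real, Real.norm_of_nonneg (by positivity)]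
    have := le_abs_self R
    linarith

theorem mark_eq (Q : Quad) : Q.mark 1 = Q.H (corner 1) := rfl

theorem rf_corner : rf (corner 1) = corner 1 := by
  rw [rf_apply]
  apply Complex.ext
  · show -(-1 : ℝ) = 1
    norm_num
  · rfl

/-- The top is far from the second corner. -/
theorem exists_r0 (H : ℂ ≃ₜ ℂ) : ∃ r₀ > 0, ∀ z : ℂ, |z.re| ≤ 1 → 1 ≤ z.im → z.im ≤ 2 →
    H z ∈ (closedBall (H (corner 1)) r₀)ᶜ := by
  set K : Set ℂ := {z | |z.re| ≤ 1 ∧ (1 ≤ z.im ∧ z.im ≤ 2)} with hK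
  have hKc : IsCompact K := by
    refine (isCompact_box 1 2).of_isClosed_subset ?_ ?_
    · exact (isClosed_le (continuous_abs.comp Complex.continuous_re) continuous_const).inter
        ((isClosed_le continuous_const Complex.continuous_im).inter
          (isClosed_le Complex.continuous_im continuous_const))
    · rintro z ⟨h1, h2, h3⟩
      exact ⟨h1, abs_le.2 ⟨by linarith, h3⟩⟩
  have hni : H (corner 1) ∉ H '' K := by
    rintro ⟨z, hz, he⟩
    rw [H.injective he] at hz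
    have h1 : (1 : ℝ) ≤ -1 := hz.2.1
    norm_num at h1
  obtain ⟨δ, hδ, h⟩ := exists_room (isCompact_singleton (x := H (corner 1)))
    (hKc.image H.continuous).isClosed.isOpen_compl (singleton_subset_iff.2 hni)
  refine ⟨δ / 2, by positivity, fun z h1 h2 h3 hmem => ?_⟩
  rw [mem_closedBall] at hmem
  exact h (H (corner 1)) rfl (H z) (by linarith) ⟨z, ⟨h1, h2, h3⟩, rfl⟩

theorem eventually_small (H : ℂ ≃ₜ ℂ) {δ : ℝ} (hδ : 0 < δ) :
    ∀ᶠ n in atTop, H '' ball (corner 1) (6 * sn n) ⊆ ball (H (corner 1)) δ := by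
  have h1 : H ⁻¹' ball (H (corner 1)) δ ∈ 𝓝 (corner 1) :=
    H.continuous.continuousAt.preimage_mem_nhds (ball_mem_nhds _ hδ)
  obtain ⟨η, hη, h2⟩ := Metric.mem_nhds_iff.1 h1
  have h3 : ∀ᶠ n in atTop, 6 * sn n < η := by
    have : Tendsto (fun n => 6 * sn n) atTop (𝓝 (6 * 0)) := tendsto_sn.const_mul 6
    rw [mul_zero] at this
    exact this.eventually_lt_const hη
  filter_upwards [h3] with n hn
  rintro _ ⟨z, hz, rfl⟩
  exact h2 (ball_subset_ball hn.le hz)

theorem wn_mem (n : ℕ) : wn n ∈ ball (corner 1) (6 * sn n) := by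
  have hs := sn_pos n
  rw [mem_ball]
  refine (dist_le_coord _ _ (c := 2 * sn n) ?_ ?_).trans_lt (by linarith)
  · show |(1 - 2 * sn n) - 1| ≤ 2 * sn n
    rw [abs_le]
    constructor <;> linarith
  · show |(-1 + 2 * sn n) - (-1)| ≤ 2 * sn n
    rw [abs_le]
    constructor <;> linarith

theorem H_wn_mem (Q : Quad) (n : ℕ) : Q.H (wn n) ∈ Q.D := by
  have hs := sn_pos n
  have hs1 := sn_le n
  refine ⟨wn n, ⟨?_, ?_⟩, rfl⟩
  · show |1 - 2 * sn n| < 1
    rw [abs_lt]
    constructor <;> linarith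
  · show |-1 + 2 * sn n| < 1
    rw [abs_lt]
    constructor <;> linarith

/-- **The inequality of `XStmt` for the domains of the perturbed quads.** -/
theorem xbound (hArm : ArmStmt.{u}) (Q : Quad) : ∃ (r1 R1 : ℕ → ℝ) (R : ℝ), (∀ n, 0 < r1 n) ∧
    ∀ η > 0, ∀ δ > 0, ∀ᶠ n in atTop, ∀ᶠ m in whp.{u}, ∀ (r ρ : ℝ) (D : Dom),
      r ≤ r1 n → ρ ≤ r1 n → Win D.X (pts m.2) (closedBall 0 (R1 n)) ρ →
      (QDom (QA Q n) r D.X D.b D.O →
        ∃ z ∈ Q.D, dist z (Q.mark 1) < δ ∧ D.Hz 2 z ≤ qcross Q 0 2 R m.2 + η) ∧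
      (QDom (QA' Q n) r D.X D.b D.O →
        ∃ z ∈ Q.D, dist z (Q.mark 1) < δ ∧ D.Hz 1 z ≤ qcross Q 1 3 R m.2 + η) := by
  obtain ⟨ra, hra, hBa⟩ := exists_r0 Q.H
  obtain ⟨rb, hrb, hBb⟩ := exists_r0 (rf.trans Q.H)
  have hcb : (rf.trans Q.H) (corner 1) = Q.H (corner 1) := by
    show Q.H (rf (corner 1)) = _
    rw [rf_corner]
  rw [hcb] at hBb
  obtain ⟨R₀, hR₀⟩ := ((isCompact_box 2 2).image Q.H.continuous).isBounded.subset_closedBall (0 : ℂ)
  set R : ℝ := R₀ + 2 with hR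
  have hRb : ∀ z : ℂ, |z.re| ≤ 2 → |z.im| ≤ 2 → ‖Q.H z‖ < R - 1 := by
    intro z h1 h2
    have := hR₀ ⟨z, ⟨h1, h2⟩, rfl⟩
    rw [mem_closedBall, dist_zero_right] at this
    linarith
  choose r2 hr2 R2 h2 using fun n => xdet02 Q isClosed_closedBall.isOpen_compl hBa n hRb
  choose r3 hr3 R3 h3 using fun n => xdet13 Q isClosed_closedBall.isOpen_compl hBb n hRb
  refine ⟨fun n => min (r2 n) (r3 n), fun n => max (R2 n) (R3 n), R,
    fun n => lt_min (hr2 n) (hr3 n), ?_⟩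
  intro η hη δ hδ
  obtain ⟨δa, hδa, ha⟩ := hArm ra hra η hη
  obtain ⟨δb, hδb, hb⟩ := hArm rb hrb η hη
  have harm : ∀ (H : ℂ ≃ₜ ℂ) (δ' r' : ℝ) (n : ℕ), H '' ball (corner 1) (6 * sn n) ⊆
      ball (Q.mark 1) δ' → ∀ (Y N : Set ℂ), N.Finite →
      qpr N (fun W => UArm Y W (H '' ball (corner 1) (6 * sn n)) (closedBall (Q.mark 1) r')ᶜ) ≤
      qpr N (fun W => UArm Y W (closedBall (Q.mark 1) δ') (ball (Q.mark 1) r')ᶜ) := by
    intro H δ' r' n hsub Y N hN
    refine qpr_mono hN fun W _ h => h.mono (fun a _ b _ h => h) subset_rfl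
      (hsub.trans ball_subset_closedBall) ?_
    exact compl_subset_compl.2 ball_subset_closedBall
  filter_upwards [eventually_small Q.H hδ, eventually_small Q.H hδa,
    eventually_small (rf.trans Q.H) hδb] with n hn1 hn2 hn3
  filter_upwards [ha (Q.mark 1), hb (Q.mark 1), whp_oneCol.{u}, whp_finite.{u} R,
    whp_white.{u} R] with m hma hmb hone hfin hwhite
  intro r ρ D hr hρ hw
  have hzD := H_wn_mem Q n
  have hzd : dist (Q.H (wn n)) (Q.mark 1) < δ := hn1 ⟨_, wn_mem n, rfl⟩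
  have hsubN : pts m.2 ∩ ball 0 R ⊆ pts m.2 := inter_subset_left
  refine ⟨fun hQ => ⟨Q.H (wn n), hzD, hzd, ?_⟩, fun hQ => ⟨Q.H (wn n), hzD, hzd, ?_⟩⟩
  · have h4 := h2 n D (pts m.2) ρ r (hr.trans (min_le_left _ _)) (hρ.trans (min_le_left _ _)) hQ
      ⟨hw.fin, hw.pos, fun z hz => hw.iff z (closedBall_subset_closedBall (le_max_left _ _) hz),
        hw.net.mono (closedBall_subset_closedBall (le_max_left _ _)) le_rfl⟩ hfin
    have h5 := qpr_le_qcross Q 0 2 hfin hone hwhite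
    have h6 := harm Q.H δa ra n hn2 (pts m.2) (pts m.2 ∩ ball 0 R) hfin
    have h7 := hma _ hsubN hfin
    rw [← mark_eq] at h4
    linarith
  · have h4 := h3 n D (pts m.2) ρ r (hr.trans (min_le_right _ _)) (hρ.trans (min_le_right _ _)) hQ
      ⟨hw.fin, hw.pos, fun z hz => hw.iff z (closedBall_subset_closedBall (le_max_right _ _) hz),
        hw.net.mono (closedBall_subset_closedBall (le_max_right _ _)) le_rfl⟩ hfin
    have h5 := qpr_le_qcross Q 1 3 hfin hone hwhite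
    have h6 := harm (rf.trans Q.H) δb rb n (by rw [mark_eq, ← hcb]; exact hn3) (pts m.2)
      (pts m.2 ∩ ball 0 R) hfin
    have h7 := hmb _ hsubN hfin
    rw [← mark_eq] at h4
    linarith

end Vale.Agent.P148.R2.H990
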