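import Vale.Agent.P148.R2.H990.X1

open Function
open Vale.Agent.P148.R2.H258 (Tri)

namespace Vale.Agent.P148.R2.H990

variable {V₁ V₀ D : Type*}

/-- `T₀` is a quotient of `T₁` (same darts), which identifies only `z`, `r`, `c`. -/
structure Ref (T₁ : Tri V₁ D) (T₀ : Tri V₀ D) (g : V₁ → V₀) (z r c : V₁) : Prop where
  rev : ∀ d, T₀.rev d = T₁.rev d
  nxt : ∀ d, T₀.nxt d = T₁.nxt d
  src : ∀ d, T₀.src d = g (T₁.src d)
  inj : ∀ x y, g x = g y → g x ≠ g z → x = y
  gr : g r = g z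
  gc : g c = g z
  fib : ∀ x, g x = g z → x = z ∨ x = r ∨ x = c

/-- The position of the outer dart `d`: it goes from `z` to `a`, with apex `t`; the other face at
this side has apex `c`, the other face at the side `zt` has apex `r`. -/
structure Outer (T : Tri V₁ D) (d : D) (z r c t a : V₁) : Prop where
  src : T.src d = z
  tgt : T.tgt d = a
  apex : T.apex d = t
  apexc : T.apex (T.rev d) = c
  apexr : T.apex (T.rev (T.nxt (T.nxt d))) = r
  hzr : z ≠ r
  hzc : z ≠ c
  hrc : r ≠ c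
  hzt : z ≠ t
  hrt : r ≠ t
  hct : c ≠ t
  hza : z ≠ a
  hra : r ≠ a
  hca : c ≠ a
  hta : t ≠ a

theorem const_along (T : Tri V₁ D) {u : V₁} {L : List D} (hw : T.Walk u u L) {N : D → ZMod 2}
    (h1 : ∀ d, N (T.nxt d) = N d)
    (h2 : ∀ d, (T.src d ≠ T.tgt d ∨ ∀ e ∈ L, T.src e ≠ T.src d) → N d + N (T.rev d) = T.mu L d)
    {x y : V₁} {s : List D} (hs : T.Walk x y s) (hav : ∀ f ∈ s, ∀ e ∈ L, T.src e ≠ T.src f)
    (hy : ∀ e ∈ L, T.src e ≠ y) {f k : D} (hf : T.src f = x) (hk : T.src k = y) : N f = N k := by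
  induction hs generalizing f with
  | nil v =>
    exact T.const_at hw h1 h2 (hf.trans hk.symm) (fun e he => by rw [hf]; exact hy e he)
  | cons f₀ w s' _ ih =>
    have hv : ∀ e ∈ L, T.src e ≠ T.src f₀ := hav f₀ List.mem_cons_self
    have e1 : N f = N f₀ := T.const_at hw h1 h2 hf (fun e he => by rw [hf]; exact hv e he)
    have e2 : N f₀ + N (T.rev f₀) = T.mu L f₀ := h2 f₀ (Or.inr hv)
    rw [T.mu_zero (fun hm => hv f₀ hm rfl) (fun hm => by
      obtain ⟨e, he, h'⟩ := hw.tgt_mem_closed _ hm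
      rw [T.tgt_rev] at h'
      exact hv e he h')] at e2
    have e3 : N (T.rev f₀) = N k :=
      ih (fun f hf => hav f (List.mem_cons_of_mem _ hf)) hy (by rw [T.src_rev]) hk
    rw [e1, ← e3]
    revert e2
    generalize N f₀ = a
    generalize N (T.rev f₀) = b
    revert a b; decide

/-- normalised potentials -/
theorem norm_pot {T : Tri V₁ D} (hP : T.Planar) {u : V₁} {L : List D} (hw : T.Walk u u L) (d : D) :
    ∃ N : D → ZMod 2, (∀ d, N (T.nxt d) = N d) ∧
    (∀ d, (T.src d ≠ T.tgt d ∨ ∀ e ∈ L, T.src e ≠ T.src d) → N d + N (T.rev d) = T.mu L d) ∧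
    N d = 0 := by
  obtain ⟨N, h1, h2⟩ := T.exists_pot hP hw d
  exact ⟨N, h1.1, h1.2, h2⟩

section

variable {T₁ : Tri V₁ D} {T₀ : Tri V₀ D} {g : V₁ → V₀} {z r c t a : V₁} {d : D}

theorem Ref.tgt (R : Ref T₁ T₀ g z r c) (f : D) : T₀.tgt f = g (T₁.tgt f) := by
  unfold Tri.tgt
  rw [R.rev, R.src]

theorem Ref.apex (R : Ref T₁ T₀ g z r c) (f : D) : T₀.apex f = g (T₁.apex f) := by
  unfold Tri.apex
  rw [R.nxt, R.nxt, R.src]

theorem Ref.mu (R : Ref T₁ T₀ g z r c) (l : List D) (f : D) : T₀.mu l f = T₁.mu l f := by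
  unfold Tri.mu
  rw [R.rev]

theorem Ref.walk (R : Ref T₁ T₀ g z r c) {x y : V₁} {l : List D} (h : T₁.Walk x y l) :
    T₀.Walk (g x) (g y) l := by
  induction h with
  | nil v => exact Tri.Walk.nil _
  | cons f w l _ ih =>
    refine Tri.Walk.cons' f (R.src f) ?_
    rw [R.tgt]
    exact ih

theorem Ref.lift (R : Ref T₁ T₀ g z r c) {u w : V₀} {l : List D} (h : T₀.Walk u w l)
    (hne : ∀ f ∈ l, T₀.src f ≠ g z) : ∀ x, g x = u → ∃ y, g y = w ∧ T₁.Walk x y l := by
  induction h with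
  | nil v => intro x hx; exact ⟨x, hx, Tri.Walk.nil x⟩
  | cons f w l _ ih =>
    intro x hx
    have h1 : T₁.src f = x := by
      refine R.inj _ _ ?_ ?_
      · rw [← R.src, hx]
      · rw [← R.src]; exact hne f List.mem_cons_self
    obtain ⟨y, hy, hw⟩ := ih (fun f hf => hne f (List.mem_cons_of_mem _ hf)) (T₁.tgt f)
      (R.tgt f).symm
    exact ⟨y, hy, Tri.Walk.cons' f h1 hw⟩

/-- **A majority crossing from `t` to `c` separates what is joined to `r` off the crossing.** -/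
theorem cross_upper [Finite D] (hP₁ : T₁.Planar) (hP₀ : T₀.Planar) (R : Ref T₁ T₀ g z r c)
    (O : Outer T₁ d z r c t a) {σ : V₀ → Bool} (h : T₀.Mi σ d) {l : List D}
    (hl : T₁.Walk t c l) (hcol : ∀ f ∈ l, σ (T₀.src f) = σ (T₀.src d))
    (hI : ∀ f ∈ l, g (T₁.src f) ≠ g z) (hnd : (l.map T₁.src).Nodup) {e : D} {s : List D}
    (hs : T₁.Walk (T₁.src e) r s) (hs1 : ∀ f ∈ s, g (T₁.src f) ≠ g z ∧ T₁.src f ≠ t)
    (hs2 : ∀ f ∈ s, ∀ f' ∈ l, T₁.src f' ≠ T₁.src f) (he : Nlc T₀ d e)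
    (hel : T₀.src e ≠ T₀.tgt e) : T₀.NK σ d e = 1 := by
  classical
  have hgt : g t ≠ g z := by
    intro hh
    rcases R.fib t hh with h1 | h1 | h1
    · exact O.hzt h1.symm
    · exact O.hrt h1.symm
    · exact O.hct h1.symm
  have hg : T₀.apex d ≠ T₀.src d := by
    rw [R.apex, R.src, O.apex, O.src]
    exact hgt
  set γ : D := T₁.rev (T₁.nxt (T₁.nxt d)) with hγ
  have hγs : T₁.src γ = z := by rw [hγ, T₁.src_rev, T₁.tgt_nxt2, O.src]
  have hγt : T₁.tgt γ = t := by rw [hγ, T₁.tgt_rev, T₁.src_nxt2, O.apex]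
  have hγr : T₁.rev γ = T₁.nxt (T₁.nxt d) := by rw [hγ, T₁.rev_rev]
  set k : D := T₁.rev (T₁.nxt (T₁.rev d)) with hk
  have hks : T₁.src k = c := by rw [hk, T₁.src_rev, T₁.tgt_nxt, O.apexc]
  have hkt : T₁.tgt k = z := by rw [hk, T₁.tgt_rev, T₁.src_nxt', T₁.tgt_rev, O.src]
  have hw : T₁.Walk z z (γ :: (l ++ [k])) := by
    refine Tri.Walk.cons' γ hγs ?_
    rw [hγt]
    refine hl.append ?_
    have := Tri.Walk.single (T := T₁) k
    rwa [hks, hkt] at this
  obtain ⟨N, hN1, hN2, hN0⟩ := norm_pot hP₁ hw d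
  have hsrcl : ∀ f ∈ l, T₁.src f ≠ z ∧ T₁.src f ≠ r ∧ T₁.src f ≠ c := by
    intro f hf
    have := hI f hf
    refine ⟨fun hh => this (by rw [hh]), fun hh => this (by rw [hh, R.gr]),
      fun hh => this (by rw [hh, R.gc])⟩
  have hγrev : N (T₁.rev γ) = 0 := by rw [hγr, hN1, hN1, hN0]
  have hNγ : N γ = 1 := by
    have h3 := hN2 γ (Or.inl (by rw [hγs, hγt]; exact O.hzt))
    have h4 : γ ∉ l ++ [k] := by
      rw [List.mem_append, List.mem_singleton]
      rintro (h5 | h5)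
      · exact (hsrcl γ h5).1 hγs
      · exact O.hzc (by rw [← hγs, h5, hks])
    have h5 : T₁.rev γ ∉ γ :: (l ++ [k]) := by
      rw [List.mem_cons, List.mem_append, List.mem_singleton]
      have e1 : T₁.src (T₁.rev γ) = t := by rw [T₁.src_rev, hγt]
      rintro (h6 | h6 | h6)
      · exact O.hzt (by rw [← hγs, ← h6, e1])
      · rcases hl.tgt_mem _ h6 with h7 | ⟨f, hf, h7⟩
        · rw [T₁.tgt_rev, hγs] at h7
          exact O.hzc h7
        · rw [T₁.tgt_rev, hγs] at h7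
          exact (hsrcl f hf).1 h7
      · exact O.hct (by rw [← hks, ← h6, e1])
    rw [hγrev, add_zero] at h3
    rw [h3]
    unfold Tri.mu
    rw [List.count_cons_self, List.count_eq_zero_of_not_mem h4, List.count_eq_zero_of_not_mem h5]
    norm_num
  have hr0 : ∀ f ∈ γ :: (l ++ [k]), T₁.src f ≠ r := by
    intro f hf
    rw [List.mem_cons, List.mem_append, List.mem_singleton] at hf
    rcases hf with rfl | hf | rfl
    · rw [hγs]; exact O.hzr
    · exact (hsrcl f hf).2.1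
    · rw [hks]; exact O.hrc.symm
  have hNe : N e = 1 := by
    have h3 := const_along T₁ hw hN1 hN2 hs (fun f hf f' hf' => by
      rw [List.mem_cons, List.mem_append, List.mem_singleton] at hf'
      obtain ⟨h4, h5⟩ := hs1 f hf
      rcases hf' with rfl | hf' | rfl
      · intro hh; exact h4 (by rw [← hh, hγs])
      · exact hs2 f hf f' hf'
      · intro hh; exact h4 (by rw [← hh, hks, R.gc])) hr0 (f := e) rfl
      (k := T₁.nxt (T₁.nxt γ)) (by rw [T₁.src_nxt2, O.apexr])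
    rw [h3, hN1, hN1, hNγ]
  have hγ0 : T₀.rev (T₀.nxt (T₀.nxt d)) = γ := by rw [R.rev, R.nxt, R.nxt]
  have hpot : T₀.pot σ d e = 1 := by
    refine pot_of_path T₀ hP₀ h hg (l := l) ?_ hcol ?_ ?_ (N := N) ?_ ?_ hN0 he hNe
    · have := R.walk hl
      rw [R.gc] at this
      rw [R.apex, R.src, O.apex, O.src]
      exact this
    · have e1 : l.map T₀.src = (l.map T₁.src).map g := by
        rw [List.map_map]
        exact List.map_congr_left fun f _ => R.src f
      rw [e1]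
      refine List.Nodup.map_on ?_ hnd
      intro x hx y _ hxy
      obtain ⟨f, hf, rfl⟩ := List.mem_map.1 hx
      exact R.inj _ _ hxy (hI f hf)
    · intro f hf
      rw [R.src, R.src, O.src]
      exact hI f hf
    · intro f; rw [R.nxt]; exact hN1 f
    · intro f hf
      rw [R.src, R.tgt] at hf
      have hf1 : T₁.src f ≠ T₁.tgt f := fun hh => hf (by rw [hh])
      rw [R.rev, hN2 f (Or.inl hf1), hγ0, R.mu]
      have e1 : γ :: (l ++ [k]) = (γ :: l) ++ [k] := by simp
      rw [e1, T₁.mu_append]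
      have e2 : T₁.mu [k] f = 0 := by
        apply T₁.mu_zero
        · intro hm
          rw [List.mem_singleton] at hm
          rw [hm, hks, hkt, R.gc] at hf
          exact hf rfl
        · intro hm
          rw [List.mem_singleton] at hm
          have h3 : T₁.src f = z := by rw [← hkt, ← hm, T₁.tgt_rev]
          have h4 : T₁.tgt f = c := by rw [← hks, ← hm, T₁.src_rev]
          rw [h3, h4, R.gc] at hf
          exact hf rfl
      rw [e2, add_zero]
  unfold Tri.NK
  rw [if_pos]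
  by_cases h1 : T₀.InG σ d e
  · exact Or.inl h1
  · by_cases h2 : T₀.InG σ d (T₀.rev e)
    · exact Or.inr (Or.inl h2)
    · refine Or.inr (Or.inr ⟨hpot, ?_⟩)
      rw [T₀.pot_rev_not hP₀ h hg hel h1 h2, hpot]

/-- **If the class of the outer face separates `e`, there is a majority crossing from `t` to `c`,
or one which meets every path from `e` to `c`.** -/
theorem cross_lower [Finite D] (hP₁ : T₁.Planar) (hP₀ : T₀.Planar) (R : Ref T₁ T₀ g z r c)
    (O : Outer T₁ d z r c t a) {σ : V₀ → Bool} (h : T₀.Mi σ d) {e : D}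
    (hNK : T₀.NK σ d e = 1) (he : Nlc T₀ d e) (hel : T₀.src e ≠ T₀.tgt e)
    (hez : g (T₁.src e) ≠ g z) :
    ∃ (l : List D) (w : V₁), g w = g z ∧ T₁.Walk t w l ∧
      (∀ f ∈ l, σ (T₀.src f) = σ (T₀.src d)) ∧ (∀ f ∈ l, g (T₁.src f) ≠ g z) ∧
      (l.map T₁.src).Nodup ∧
      (w = c ∨ ∀ s : List D, T₁.Walk (T₁.src e) c s → (∀ f ∈ s, g (T₁.src f) ≠ g z) →
        ∃ f ∈ s, ∃ f' ∈ l, T₁.src f' = T₁.src f) := by
  classical
  have hgt : g t ≠ g z := by
    intro hh
    rcases R.fib t hh with h1 | h1 | h1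
    · exact O.hzt h1.symm
    · exact O.hrt h1.symm
    · exact O.hct h1.symm
  have hg : T₀.apex d ≠ T₀.src d := by
    rw [R.apex, R.src, O.apex, O.src]
    exact hgt
  obtain ⟨hp0, l, hpot, hcw, hlw, hnd, hmem⟩ := T₀.pot_spec hP₀ h hg
  set γ : D := T₁.rev (T₁.nxt (T₁.nxt d)) with hγ
  have hγ0 : T₀.rev (T₀.nxt (T₀.nxt d)) = γ := by rw [R.rev, R.nxt, R.nxt]
  rw [hγ0] at hpot hcw hnd hmem
  have hγs : T₁.src γ = z := by rw [hγ, T₁.src_rev, T₁.tgt_nxt2, O.src]
  have hγt : T₁.tgt γ = t := by rw [hγ, T₁.tgt_rev, T₁.src_nxt2, O.apex]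
  have hγr : T₁.rev γ = T₁.nxt (T₁.nxt d) := by rw [hγ, T₁.rev_rev]
  rw [List.map_cons, List.nodup_cons] at hnd
  have hlz : ∀ f ∈ l, T₀.src f ≠ g z := by
    intro f hf hh
    apply hnd.1
    rw [R.src, hγs, ← hh]
    exact List.mem_map_of_mem hf
  have hlz' : ∀ f ∈ l, g (T₁.src f) ≠ g z := by
    intro f hf; rw [← R.src]; exact hlz f hf
  have hlw' : T₀.Walk (g t) (g z) l := by
    rw [R.apex, R.src, O.apex, O.src] at hlw
    exact hlw
  obtain ⟨w, hwz, hlw1⟩ := R.lift hlw' hlz t rfl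
  have hcol : ∀ f ∈ l, σ (T₀.src f) = σ (T₀.src d) := by
    intro f hf
    exact (T₀.inG_col ((hmem f).1 (List.mem_cons_of_mem _ hf))).1
  have hnd1 : (l.map T₁.src).Nodup := by
    have e1 : l.map T₀.src = (l.map T₁.src).map g := by
      rw [List.map_map]
      exact List.map_congr_left fun f _ => R.src f
    have := hnd.2
    rw [e1] at this
    exact List.Nodup.of_map g this
  refine ⟨l, w, hwz, hlw1, hcol, hlz', hnd1, ?_⟩
  by_cases hwc : w = c
  · exact Or.inl hwc
  right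
  intro s hs hs1
  by_contra hcon
  push Not at hcon
  -- closing walk from `w` to `z`
  have hclose : ∃ m : List D, T₁.Walk w z m ∧ (∀ f ∈ m, T₁.src f = r) ∧
      ∀ f ∈ m, T₀.src f = T₀.tgt f := by
    rcases R.fib w hwz with h1 | h1 | h1
    · exact ⟨[], by rw [h1]; exact Tri.Walk.nil z, by simp, by simp⟩
    · have e1 : T₁.src (T₁.nxt (T₁.nxt γ)) = r := by rw [T₁.src_nxt2, O.apexr]
      have e2 : T₁.tgt (T₁.nxt (T₁.nxt γ)) = z := by rw [T₁.tgt_nxt2, hγs]
      refine ⟨[T₁.nxt (T₁.nxt γ)], ?_, ?_, ?_⟩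
      · have := Tri.Walk.single (T := T₁) (T₁.nxt (T₁.nxt γ))
        rw [e1, e2] at this
        rw [h1]
        exact this
      · intro f hf
        rw [List.mem_singleton] at hf
        rw [hf, e1]
      · intro f hf
        rw [List.mem_singleton] at hf
        rw [hf, R.src, R.tgt, e1, e2, R.gr]
    · exact absurd h1 hwc
  obtain ⟨m, hm, hmr, hml⟩ := hclose
  have hw : T₁.Walk z z (γ :: (l ++ m)) := by
    refine Tri.Walk.cons' γ hγs ?_
    rw [hγt]
    exact hlw1.append hm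
  obtain ⟨N, hN1, hN2, hN0⟩ := norm_pot hP₁ hw d
  have hlne : l ≠ [] := by
    rintro rfl
    rcases hlw'.casesOn' with ⟨_, h1⟩ | ⟨_, _, h1, _⟩
    · exact hgt h1
    · exact absurd h1 (by simp)
  obtain ⟨f₁, hf₁, hf₁t⟩ := hlw1.src_head hlne
  -- unvisited vertices
  have hvis : ∀ f ∈ γ :: (l ++ m), T₁.src f = z ∨ T₁.src f = r ∨ f ∈ l := by
    intro f hf
    rw [List.mem_cons, List.mem_append] at hf
    rcases hf with rfl | hf | hf
    · exact Or.inl hγs
    · exact Or.inr (Or.inr hf)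
    · exact Or.inr (Or.inl (hmr f hf))
  have hga : g a ≠ g z := by
    intro hh
    rcases R.fib a hh with h1 | h1 | h1
    · exact O.hza h1.symm
    · exact O.hra h1.symm
    · exact O.hca h1.symm
  have hσa : σ (g a) ≠ σ (T₀.src d) := by
    have := h.1
    rw [R.tgt, O.tgt] at this
    exact this.symm
  have hac : ∀ f ∈ γ :: (l ++ m), T₁.src f ≠ a := by
    intro f hf hh
    rcases hvis f hf with h1 | h1 | h1
    · exact O.hza (h1.symm.trans hh)
    · exact O.hra (h1.symm.trans hh)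
    · apply hσa
      rw [← hh, ← R.src]
      exact hcol f h1
  have hcc : ∀ f ∈ γ :: (l ++ m), T₁.src f ≠ c := by
    intro f hf hh
    rcases hvis f hf with h1 | h1 | h1
    · exact O.hzc (h1.symm.trans hh)
    · exact O.hrc (h1.symm.trans hh)
    · exact hlz' f h1 (by rw [hh, R.gc])
  have hNa : N (T₁.rev d) = 0 := by
    have h3 := T₁.const_at hw hN1 hN2 (d := T₁.rev d) (e := T₁.nxt d)
      (by rw [T₁.src_rev, T₁.src_nxt']) (by
        intro f hf
        rw [T₁.src_rev, O.tgt]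
        exact hac f hf)
    rw [h3, hN1, hN0]
  have hNc : N (T₁.nxt (T₁.nxt (T₁.rev d))) = 0 := by rw [hN1, hN1, hNa]
  have hNe : N e = 0 := by
    have h3 := const_along T₁ hw hN1 hN2 hs (fun f hf f' hf' => by
      intro hh
      rcases hvis f' hf' with h1 | h1 | h1
      · exact hs1 f hf (by rw [← hh, h1])
      · exact hs1 f hf (by rw [← hh, h1, R.gr])
      · exact hcon f hf f' h1 hh) hcc (f := e) rfl
      (k := T₁.nxt (T₁.nxt (T₁.rev d))) (by rw [T₁.src_nxt2, O.apexc])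
    rw [h3, hNc]
  -- comparison with the potential of the class
  have hdiff : ∀ f, T₀.src f ≠ T₀.tgt f → T₀.pot σ d f + T₀.pot σ d (T₀.rev f) =
      N f + N (T₁.rev f) := by
    intro f hf
    have h1 := hpot.2 f (Or.inl hf)
    rw [h1]
    rw [R.src, R.tgt] at hf
    have hf1 : T₁.src f ≠ T₁.tgt f := fun hh => hf (by rw [hh])
    rw [hN2 f (Or.inl hf1), R.mu]
    have e1 : γ :: (l ++ m) = (γ :: l) ++ m := by simp
    rw [e1, T₁.mu_append]
    have e2 : T₁.mu m f = 0 := by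
      apply T₁.mu_zero
      · intro hh
        have := hml f hh
        rw [R.src, R.tgt] at this
        exact hf this
      · intro hh
        have := hml _ hh
        rw [R.src, R.tgt, T₁.src_rev, T₁.tgt_rev] at this
        exact hf this.symm
    rw [e2, add_zero]
  have hpe : T₀.pot σ d e = 0 := by
    have h3 := nlc_const T₀ (G := fun f => T₀.pot σ d f + N f) (fun f => by
      show T₀.pot σ d (T₀.nxt f) + N (T₀.nxt f) = T₀.pot σ d f + N f
      rw [T₀.pot_nxt hP₀ h hg, R.nxt, hN1]) (fun f hf => by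
      have h4 := hdiff f hf
      show T₀.pot σ d (T₀.rev f) + N (T₀.rev f) = T₀.pot σ d f + N f
      rw [R.rev] at h4 ⊢
      revert h4
      generalize T₀.pot σ d f = a
      generalize T₀.pot σ d (T₁.rev f) = b
      generalize N f = c
      generalize N (T₁.rev f) = k
      revert a b c k; decide) he
    rw [hp0, hN0, hNe, add_zero, add_zero] at h3
    exact h3.symm
  have hev : ∀ f ∈ γ :: l, T₁.src f ≠ T₁.src e := by
    intro f hf hh
    rcases List.mem_cons.1 hf with rfl | hf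
    · rw [hγs] at hh
      exact hez (by rw [← hh])
    · rcases hs.casesOn' with ⟨_, h2⟩ | ⟨k, s', h1, h2, _⟩
      · exact hlz' f hf (by rw [hh, h2, R.gc])
      · exact hcon k (by rw [h1]; exact List.mem_cons_self) f hf (by rw [hh, h2])
  have hn1 : ¬ T₀.InG σ d e := fun hh => hev e ((hmem e).2 hh) rfl
  have hn2 : ¬ T₀.InG σ d (T₀.rev e) := by
    intro hh
    have h1 := (hmem _).2 hh
    obtain ⟨f, hf, h2⟩ := hcw.tgt_mem_closed _ h1
    rw [T₀.tgt_rev, R.src, R.src] at h2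
    have h3 : T₁.src f = T₁.src e := R.inj _ _ h2 (by rw [h2]; exact hez)
    exact hev f hf h3
  unfold Tri.NK at hNK
  rw [if_neg] at hNK
  · exact absurd hNK (by norm_num)
  · rintro (hh | hh | ⟨hh, -⟩)
    · exact hn1 hh
    · exact hn2 hh
    · rw [hpe] at hh
      exact absurd hh (by decide)

end

end Vale.Agent.P148.R2.H990
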