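import Vale.Agent.P148.R2.H990.X2
import Vale.Agent.P148.R2.H592.Del9

open Function Set
open Vale.Agent.P148.R2.H258 (Tri)
open Vale.Agent.P148.R2.H592

namespace Vale.Agent.P148.R2.H990

variable {X : Set ℂ} {b : ZMod 3 → ℂ} (h : HullTri X b) {V : Type*} (π : ℂ → V) (hπ : Fib X π)

abbrev Dart (X : Set ℂ) (b : ZMod 3 → ℂ) : Type := Fc X b × ZMod 3

/-- turning around the tail -/
noncomputable def rt (h : HullTri X b) (q : Dart X b) : Dart X b := h.rv (q.1, q.2 + 2)

theorem tail_rt (q : Dart X b) : tail (rt h q) = tail q := by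
  rw [rt, h.tail_rv, HullTri.head_next2]

theorem rt_inv (q : Dart X b) : ((h.rv (rt h q)).1, (h.rv (rt h q)).2 + 1) = q := by
  rw [rt, h.rv_rv]
  obtain ⟨t, j⟩ := q
  simp only
  congr 1
  revert j; decide

theorem rt_inv' (q : Dart X b) : rt h ((h.rv q).1, (h.rv q).2 + 1) = q := by
  rw [rt]
  have : (((h.rv q).1, (h.rv q).2 + 1 + 2) : Dart X b) = h.rv q := by
    obtain ⟨t, j⟩ := h.rv q
    simp only
    congr 1
    revert j; decide
  simp only
  rw [this, h.rv_rv]

/-- the darts around a point -/
theorem nxt2_eq {G : Dart X b → ZMod 2} (h1 : ∀ q : Dart X b, G (q.1, q.2 + 1) = G q)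
    (q : Dart X b) : G (q.1, q.2 + 2) = G q := by
  have e : (((q.1, q.2 + 1) : Dart X b).1, ((q.1, q.2 + 1) : Dart X b).2 + 1) =
      ((q.1, q.2 + 2) : Dart X b) := by
    simp only
    congr 1
    generalize q.2 = j
    revert j; decide
  rw [← e, h1, h1]

open Classical in
theorem parity_tail [Fintype (Dart X b)] {G : Dart X b → ZMod 2}
    (h1 : ∀ q : Dart X b, G (q.1, q.2 + 1) = G q) (x : ℂ) :
    ∑ f ∈ Finset.univ.filter (fun f : Dart X b => tail f = x), (G f + G (h.rv f)) = 0 := by
  rw [Finset.sum_add_distrib]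
  have h2 : ∑ f ∈ Finset.univ.filter (fun f : Dart X b => tail f = x), G f =
      ∑ f ∈ Finset.univ.filter (fun f : Dart X b => tail f = x), G (h.rv f) := by
    refine Finset.sum_nbij' (fun f => rt h f) (fun f => ((h.rv f).1, (h.rv f).2 + 1)) ?_ ?_ ?_ ?_ ?_
    · intro f hf
      rw [Finset.mem_filter] at hf ⊢
      exact ⟨Finset.mem_univ _, by rw [tail_rt, hf.2]⟩
    · intro f hf
      rw [Finset.mem_filter] at hf ⊢
      refine ⟨Finset.mem_univ _, ?_⟩
      have := HullTri.tail_next (h.rv f)
      rw [h.head_rv] at this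
      rw [this, hf.2]
    · intro f _; exact rt_inv h f
    · intro f _; exact rt_inv' h f
    · intro f _
      rw [rt, h.rv_rv, nxt2_eq h1]
  rw [h2]
  exact z2self _

include h in
/-- a filling is constant around a point off the cycle -/
theorem fill_const {N z : ℂ → ℂ → ZMod 2} (hN : Fills X b N z) {x u v : ℂ}
    (hz : ∀ w, nbr X w x → z w x = 0) (hu : nbr X x u) (hv : nbr X x v) : N x u = N x v := by
  have h1 := h.eqv_rot hu hv
  have key : ∀ f g : Dart X b, Relation.EqvGen (fun f g : Fc X b × ZMod 3 =>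
      g = h.rv (f.1, f.2 + 2)) f g → (tail f = x ↔ tail g = x) ∧
        (tail f = x → N (tail f) (head f) = N (tail g) (head g)) := by
    intro f g hfg
    induction hfg with
    | rel f g hfg =>
      subst hfg
      have e0 : tail (h.rv (f.1, f.2 + 2)) = tail f := by rw [h.tail_rv, HullTri.head_next2]
      refine ⟨by rw [e0], fun hf => ?_⟩
      have e1 := hN.2 _ _ (h.nbr_th (f.1, f.2 + 2))
      rw [HullTri.tail_next2, HullTri.head_next2] at e1
      have e2 : z (vc f.1 f.2) (tail f) = 0 := by
        have := h.nbr_th (f.1, f.2 + 2)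
        rw [HullTri.tail_next2, HullTri.head_next2] at this
        rw [hf] at this ⊢
        exact hz _ this
      rw [e2] at e1
      have e3 : head (h.rv (f.1, f.2 + 2)) = vc f.1 f.2 := by rw [h.head_rv, HullTri.tail_next2]
      rw [e0, e3]
      have e4 : N (tail f) (head f) = N (vc f.1 f.2) (tail f) := by
        have t1 := th_Tl f
        rw [hN.1 _ _ _ t1, hN.1 _ _ _ (HullTri.Tl_rot t1)]
      rw [e4]
      revert e1
      generalize N (vc f.1 f.2) (tail f) = p
      generalize N (tail f) (vc f.1 f.2) = q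
      revert p q; decide
    | refl f => exact ⟨Iff.rfl, fun _ => rfl⟩
    | symm f g _ ih => exact ⟨ih.1.symm, fun hf => (ih.2 (ih.1.2 hf)).symm⟩
    | trans f g k _ _ ih1 ih2 =>
      exact ⟨ih1.1.trans ih2.1, fun hf => (ih1.2 hf).trans (ih2.2 (ih1.1.1 hf))⟩
  have h2 := (key _ _ h1).2 (h.tail_dart _)
  rw [h.tail_dart, h.head_dart, h.tail_dart, h.head_dart] at h2
  exact h2

include h in
/-- a filling is constant along a path off the cycle -/
theorem fill_const_path {N z : ℂ → ℂ → ZMod 2} (hN : Fills X b N z) (hs : ∀ u v, z u v = z v u)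
    {S : Set ℂ} (hz : ∀ x ∈ S, ∀ w, z w x = 0) {x y : ℂ} (hx : x ∈ S)
    (hxy : Relation.ReflTransGen (fun a c => nbr X a c ∧ c ∈ S) x y) :
    ∀ {u v}, nbr X x u → nbr X y v → N x u = N y v := by
  induction hxy with
  | refl => intro u v hu hv; exact fill_const h hN (fun w _ => hz x hx w) hu hv
  | tail hab hbc ih =>
    rename_i a c
    intro u v hu hv
    have h1 := ih hu hbc.1
    have h2 := hN.2 a c hbc.1
    rw [hz c hbc.2 a] at h2
    have h3 : N c a = N c v := fill_const h hN (fun w _ => hz c hbc.2 w) (nbr_symm hbc.1) hv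
    rw [h1, ← h3]
    revert h2
    generalize N a c = p
    generalize N c a = q
    revert p q; decide

include hπ in
/-- A face function without any jump is constant. -/
theorem const_all {F : Dart X b → ZMod 2} (h1 : ∀ q : Dart X b, F (q.1, q.2 + 1) = F q)
    (h2 : ∀ q, F (h.rv q) = F q) (q q' : Dart X b) : F q = F q' := by
  have hsame : ∀ q q' : Dart X b, tail q = tail q' → F q = F q' := by
    intro q q' hqq
    refine (h.tri258 π hπ).const_at (u := π (tail q)) (l := []) (Tri.Walk.nil _) (N := F) h1
      (fun d _ => ?_) (congrArg π hqq) (by simp)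
    rw [(h.tri258 π hπ).mu_nil]
    show F d + F (h.rv d) = 0
    rw [h2]
    exact z2self _
  have key : ∀ y, Relation.ReflTransGen (fun a c => nbr X a c) (tail q) y →
      ∀ q' : Dart X b, tail q' = y → F q = F q' := by
    intro y hy
    induction hy with
    | refl => intro q' hq'; exact hsame q q' hq'.symm
    | tail _ hbc ih =>
      intro q' hq'
      rw [ih (h.dart hbc) (h.tail_dart _), ← h2]
      exact hsame _ _ (by rw [h.tail_rv, h.head_dart, hq'])
  exact key _ (graph_connected h.fin (h.nbr_th q).1 (h.nbr_th q').1) q' rfl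

/-- **The dual graph of the quotient is connected near `e`**: if for every hull vertex `b j` the
point `tail e` is joined to another hull vertex off the fibre of `b j`, then `e` and the darts of the
outer face are joined by turning around faces and crossing edges which are not loops. -/
theorem nlc_of_paths (hinj : ∀ i j, π (b i) = π (b j) → i = j)
    (honly : ∀ x ∈ X, ∀ y ∈ X, nbr X x y → π x = π y → ∃ j, π x = π (b j))
    {d e : Dart X b} (hd : ∃ j, tail d = b (j + 1) ∧ head d = b j)
    (hpath : ∀ j, π (tail e) ≠ π (b j) ∧ ∃ i, i ≠ j ∧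
      Relation.ReflTransGen (fun a c => nbr X a c ∧ π c ≠ π (b j)) (tail e) (b i)) :
    Nlc (h.tri258 π hπ) d e := by
  classical
  have hfF := h.finite_Fc
  have : Finite (Dart X b) := inferInstance
  have := Fintype.ofFinite (Dart X b)
  set T := h.tri258 π hπ with hT
  have hTsrc : ∀ q, T.src q = π (tail q) := fun _ => rfl
  have hTrev : ∀ q, T.rev q = h.rv q := fun _ => rfl
  have hTnxt : ∀ q : Dart X b, T.nxt q = (q.1, q.2 + 1) := fun _ => rfl
  have hTtgt : ∀ q, T.tgt q = π (head q) := fun q => by
    show π (tail (h.rv q)) = π (head q)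
    rw [h.tail_rv]
  by_contra hcon
  set G : Dart X b → ZMod 2 := fun f => if Nlc T d f then 1 else 0 with hG
  have hG1 : ∀ q : Dart X b, G (q.1, q.2 + 1) = G q := by
    intro q
    simp only [hG]
    congr 1
    apply propext
    constructor
    · intro hh
      exact Relation.EqvGen.trans _ _ _ hh
        (Relation.EqvGen.symm _ _ (Relation.EqvGen.rel _ _ (Or.inl rfl)))
    · intro hh
      exact Relation.EqvGen.trans _ _ _ hh (Relation.EqvGen.rel _ _ (Or.inl rfl))
  have hG2 : ∀ q : Dart X b, π (tail q) ≠ π (head q) → G (h.rv q) = G q := by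
    intro q hq
    have hq' : T.src q ≠ T.tgt q := by rw [hTsrc, hTtgt]; exact hq
    simp only [hG]
    congr 1
    apply propext
    constructor
    · intro hh
      exact Relation.EqvGen.trans _ _ _ hh
        (Relation.EqvGen.symm _ _ (Relation.EqvGen.rel _ _ (Or.inr ⟨hq', rfl⟩)))
    · intro hh
      exact Relation.EqvGen.trans _ _ _ hh (Relation.EqvGen.rel _ _ (Or.inr ⟨hq', rfl⟩))
  -- the jump chain
  let J : ℂ → ℂ → ZMod 2 := fun u v => if huv : nbr X u v then G (h.dart huv) + G (h.rv (h.dart huv)) else 0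
  have hJd : ∀ q : Dart X b, J (tail q) (head q) = G q + G (h.rv q) := by
    intro q
    simp only [J]
    rw [dif_pos (h.nbr_th q)]
    have e1 : h.dart (h.nbr_th q) = q := h.th_inj (h.tail_dart _) (h.head_dart _)
    rw [e1]
  have hJn : ∀ u v, ¬ nbr X u v → J u v = 0 := by
    intro u v huv
    simp only [J]
    rw [dif_neg huv]
  have hJs : ∀ u v, J u v = J v u := by
    intro u v
    by_cases huv : nbr X u v
    · obtain ⟨q, rfl, rfl⟩ := h.exists_dart huv
      have e1 := hJd (h.rv q)
      rw [h.tail_rv, h.head_rv, h.rv_rv] at e1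
      rw [hJd, e1, add_comm]
    · rw [hJn _ _ huv, hJn _ _ (fun hh => huv (nbr_symm hh))]
  have hJπ : ∀ u v, π u ≠ π v → J u v = 0 := by
    intro u v huv
    by_cases hn : nbr X u v
    · obtain ⟨q, rfl, rfl⟩ := h.exists_dart hn
      rw [hJd, hG2 q huv]
      exact z2self _
    · exact hJn _ _ hn
  have hJsum : ∀ x ∈ X, ∑ w ∈ h.fin.toFinset, J x w = 0 := by
    intro x hx
    rw [← parity_tail h hG1 x]
    have e1 : ∑ w ∈ h.fin.toFinset, J x w = ∑ w ∈ h.fin.toFinset.filter (fun w => nbr X x w), J x w := by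
      rw [Finset.sum_filter]
      refine Finset.sum_congr rfl fun w _ => ?_
      split_ifs with hn
      · rfl
      · exact hJn _ _ hn
    rw [e1]
    symm
    refine Finset.sum_bij (fun q _ => head q) ?_ ?_ ?_ ?_
    · intro q hq
      rw [Finset.mem_filter] at hq
      rw [Finset.mem_filter, h.fin.mem_toFinset, ← hq.2]
      exact ⟨(h.nbr_th q).2.1, h.nbr_th q⟩
    · intro q hq q' hq' hqq
      rw [Finset.mem_filter] at hq hq'
      exact h.th_inj (hq.2.trans hq'.2.symm) hqq
    · intro w hw
      rw [Finset.mem_filter] at hw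
      refine ⟨h.dart hw.2, ?_, h.head_dart _⟩
      rw [Finset.mem_filter]
      exact ⟨Finset.mem_univ _, h.tail_dart _⟩
    · intro q hq
      rw [Finset.mem_filter] at hq
      rw [← hq.2, hJd]
  -- split according to the fibre
  let Z : ZMod 3 → ℂ → ℂ → ZMod 2 := fun j u v => if π u = π (b j) ∧ π v = π (b j) then J u v else 0
  have hZs : ∀ j u v, Z j u v = Z j v u := by
    intro j u v
    simp only [Z]
    rw [hJs u v]
    congr 1
    exact propext and_comm
  have hZn : ∀ j u v, ¬ nbr X u v → Z j u v = 0 := by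
    intro j u v huv
    simp only [Z]
    rw [hJn _ _ huv, ite_self]
  have hZsum : ∀ j, ∀ x ∈ X, ∑ w ∈ h.fin.toFinset, Z j x w = 0 := by
    intro j x hx
    by_cases hxj : π x = π (b j)
    · rw [← hJsum x hx]
      refine Finset.sum_congr rfl fun w _ => ?_
      simp only [Z]
      by_cases hwj : π w = π (b j)
      · rw [if_pos ⟨hxj, hwj⟩]
      · rw [if_neg (fun hh => hwj hh.2), hJπ x w (by rw [hxj]; exact fun hh => hwj hh.symm)]
    · refine Finset.sum_eq_zero fun w _ => ?_
      simp only [Z]
      rw [if_neg (fun hh => hxj hh.1)]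
  choose N hN using fun j => h.homology (hZs j) (hZn j) (hZsum j)
  have hZj : ∀ j x, π x ≠ π (b j) → ∀ w, Z j w x = 0 := by
    intro j x hx w
    simp only [Z]
    rw [if_neg (fun hh => hx hh.2)]
  -- the sum has no jump
  let F : Dart X b → ZMod 2 := fun q => G q + ∑ j, N j (tail q) (head q)
  have hF1 : ∀ q : Dart X b, F (q.1, q.2 + 1) = F q := by
    intro q
    simp only [F]
    rw [hG1, HullTri.tail_next, HullTri.head_next]
    congr 1
    refine Finset.sum_congr rfl fun j _ => ?_
    exact ((hN j).1 _ _ _ (th_Tl q)).symm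
  have hF2 : ∀ q, F (h.rv q) = F q := by
    intro q
    have hJq : J (tail q) (head q) = ∑ j, Z j (tail q) (head q) := by
      by_cases hne : π (tail q) = π (head q)
      · obtain ⟨j, hj⟩ := honly _ (h.nbr_th q).1 _ (h.nbr_th q).2.1 (h.nbr_th q) hne
        rw [Finset.sum_eq_single j]
        · simp only [Z]
          rw [if_pos ⟨hj, hne ▸ hj⟩]
        · intro i _ hij
          simp only [Z]
          rw [if_neg]
          rintro ⟨hh, -⟩
          exact hij (hinj _ _ (hh.symm.trans hj))
        · intro hh; exact absurd (Finset.mem_univ _) hh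
      · rw [hJπ _ _ hne]
        symm
        refine Finset.sum_eq_zero fun j _ => ?_
        simp only [Z]
        rw [if_neg]
        rintro ⟨h1, h2⟩
        exact hne (h1.trans h2.symm)
    have e1 : F q + F (h.rv q) = 0 := by
      simp only [F]
      rw [h.tail_rv, h.head_rv]
      have e2 : G q + ∑ j, N j (tail q) (head q) + (G (h.rv q) + ∑ j, N j (head q) (tail q)) =
          (G q + G (h.rv q)) + ∑ j, (N j (tail q) (head q) + N j (head q) (tail q)) := by
        rw [Finset.sum_add_distrib]; ring
      rw [e2, ← hJd, hJq, Finset.sum_congr rfl fun j _ => (hN j).2 _ _ (h.nbr_th q)]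
      exact z2self _
    revert e1
    generalize F q = p
    generalize F (h.rv q) = r
    revert p r; decide
  have hFc := const_all h π hπ hF1 hF2 d e
  have hNde : ∀ j, N j (tail e) (head e) = N j (tail d) (head d) := by
    intro j
    obtain ⟨h1, i, hij, h2⟩ := hpath j
    have h3 : Relation.ReflTransGen (fun a c => nbr X a c ∧ c ∈ {x | π x ≠ π (b j)}) (tail e) (b i) :=
      h2
    obtain ⟨k, hk1, hk2⟩ := hd
    have hface : ∀ m : ZMod 3, N j (tail d) (head d) = N j (b (m + 1)) (b m) := by
      intro m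
      have t1 : Tl X b (b (k + 1)) (b k) (b (k + 2)) := Or.inr ⟨k, rfl, rfl, rfl⟩
      have e1 := (hN j).1 _ _ _ t1
      have e2 := (hN j).1 _ _ _ (HullTri.Tl_rot t1)
      rw [hk1, hk2]
      rcases z3_cases k m with rfl | rfl | rfl
      · rfl
      · rw [e1, e2, (show k + 2 = k + 1 + 1 from by clear * -; revert k; decide)]
      · rw [e1, (show b k = b (k + 2 + 1) from congrArg b (by clear * -; revert k; decide))]
    rw [hface (i + 2)]
    have e5 : b (i + 2 + 1) = b i := congrArg b (by clear * -; revert i; decide)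
    rw [e5]
    have hn : nbr X (b i) (b (i + 2)) := by
      have := h.nbr_hull (i + 2)
      rwa [e5] at this
    exact fill_const_path h (hN j) (hZs j) (fun x hx w => hZj j x hx w) h1 h3 (h.nbr_th e) hn
  simp only [F] at hFc
  rw [Finset.sum_congr rfl fun j _ => hNde j] at hFc
  have hGd : G d = 1 := by
    simp only [hG]
    exact if_pos (Relation.EqvGen.refl _)
  have hGe : G e = 0 := by
    simp only [hG]
    exact if_neg hcon
  rw [hGd, hGe] at hFc
  revert hFc
  generalize (∑ j, N j (tail d) (head d)) = p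
  revert p; decide

end Vale.Agent.P148.R2.H990
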