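import Vale.Agent.P148.R2.H990.X2
import Vale.Agent.P148.R2.H592.Contr

/-!
# P148, module X: the class of an outer dart separates

If the edge of `e` is on or beyond the majority cycle of the class of `d`, the cycle meets every path
from `e` to the minority vertex.
-/

open Function Set
open Vale.Agent.P148.R2.H258 (Tri)
open Vale.Agent.P148.R2.H592

namespace Vale.Agent.P148.R2.H990

/-- **Separation.** -/
theorem sep_of_NK {V D : Type*} [Finite D] (T : Tri V D) (hP : T.Planar) {σ : V → Bool} {d : D}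
    (h : T.Mi σ d) (hg : T.apex d ≠ T.src d) {e : D} (hNK : T.NK σ d e = 1) :
    ∃ l : List D, T.Walk (T.apex d) (T.src d) l ∧ (∀ f ∈ l, σ (T.src f) = σ (T.src d)) ∧
      (l.map T.src).Nodup ∧ (∀ f ∈ l, T.src f ≠ T.src d) ∧
      ∀ s : List D, T.Walk (T.src e) (T.tgt d) s →
        ∃ f ∈ s, T.src f = T.src d ∨ ∃ f' ∈ l, T.src f' = T.src f := by
  obtain ⟨h0, l, h1, h2, h3, h4, h5⟩ := T.pot_spec hP h hg
  have hγs : T.src (T.rev (T.nxt (T.nxt d))) = T.src d := by rw [T.src_rev, T.tgt_nxt2]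
  have hcol : ∀ f ∈ T.rev (T.nxt (T.nxt d)) :: l, σ (T.src f) = σ (T.src d) :=
    fun f hf => (T.inG_col ((h5 f).1 hf)).1
  rw [List.map_cons, List.nodup_cons] at h4
  have hlne : ∀ f ∈ l, T.src f ≠ T.src d := by
    intro f hf hh
    apply h4.1
    rw [hγs, ← hh]
    exact List.mem_map_of_mem hf
  refine ⟨l, h3, fun f hf => hcol f (List.mem_cons_of_mem _ hf), h4.2, hlne, ?_⟩
  intro s hs
  by_contra hcon
  push Not at hcon
  have hmaj : ∀ f ∈ T.rev (T.nxt (T.nxt d)) :: l, T.src f ≠ T.tgt d := by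
    intro f hf hh
    have := hcol f hf
    rw [hh] at this
    exact h.1 this.symm
  have hav : ∀ f ∈ s, ∀ k ∈ T.rev (T.nxt (T.nxt d)) :: l, T.src k ≠ T.src f := by
    intro f hf k hk
    rcases List.mem_cons.1 hk with rfl | hk
    · rw [hγs]; exact fun hh => (hcon f hf).1 hh.symm
    · exact (hcon f hf).2 k hk
  have hpe : T.pot σ d e = 0 := by
    have := const_along T h2 h1.1 h1.2 hs hav hmaj (f := e) rfl (k := T.nxt d) (T.src_nxt' d)
    rw [this, T.pot_nxt hP h hg, h0]
  have hsrce : ∀ k ∈ T.rev (T.nxt (T.nxt d)) :: l, T.src k ≠ T.src e := by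
    intro k hk hh
    rcases hs.casesOn' with ⟨_, h6⟩ | ⟨f, s', h6, h7, _⟩
    · exact hmaj k hk (hh.trans h6)
    · exact hav f (by rw [h6]; exact List.mem_cons_self) k hk (by rw [hh, h7])
  have hn1 : ¬ T.InG σ d e := fun hh => hsrce e ((h5 e).2 hh) rfl
  have hn2 : ¬ T.InG σ d (T.rev e) := by
    intro hh
    obtain ⟨f, hf, h6⟩ := h2.tgt_mem_closed _ ((h5 _).2 hh)
    rw [T.tgt_rev] at h6
    exact hsrce f hf h6
  unfold Tri.NK at hNK
  rw [if_neg] at hNK
  · exact absurd hNK (by norm_num)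
  · rintro (hh | hh | ⟨hh, -⟩)
    · exact hn1 hh
    · exact hn2 hh
    · rw [hpe] at hh
      exact absurd hh (by decide)

section

variable {X : Set ℂ} {b : ZMod 3 → ℂ} (h : HullTri X b) {O : ZMod 3 → Set ℂ}

/-- The darts. -/
abbrev FD (X : Set ℂ) (b : ZMod 3 → ℂ) : Type := Fc X b × ZMod 3

/-- The seeds which are not contracted. -/
def Inn (X : Set ℂ) (O : ZMod 3 → Set ℂ) : Set ℂ := {x | x ∈ X ∧ ∀ j, x ∉ O j}

/-- The colour of a seed of the inner part. -/
noncomputable def colr (X : Set ℂ) (O : ZMod 3 → Set ℂ) (σ : CV X O → Bool) (x : ℂ) : Bool :=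
  σ (cmap X O x)

/-- Neighbouring inner seeds of colour `c`. -/
def Stp (X : Set ℂ) (O : ZMod 3 → Set ℂ) (σ : CV X O → Bool) (c : Bool) (x y : ℂ) : Prop :=
  nbr X x y ∧ (x ∈ Inn X O ∧ colr X O σ x = c) ∧ y ∈ Inn X O ∧ colr X O σ y = c

theorem cmap_inl_of_not_inn {x : ℂ} (hx : x ∈ X) (hd : Pairwise fun i j => Disjoint (O i) (O j))
    (hn : x ∉ Inn X O) : ∃ j, x ∈ O j ∧ cmap X O x = Sum.inl j := by
  have : ∃ j, x ∈ O j := by
    by_contra hcon
    push Not at hcon
    exact hn ⟨hx, hcon⟩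
  obtain ⟨j, hj⟩ := this
  exact ⟨j, hj, cmap_of_mem hd hj⟩

theorem cmap_inn_inj {x y : ℂ} (hx : x ∈ Inn X O) (h' : cmap X O y = cmap X O x) : y = x := by
  have h1 : cmap X O x = Sum.inr ⟨x, hx⟩ := cmap_of_free hx.1 hx.2
  exact eq_of_cmap (h'.trans h1)

/-- **The arms of the class of the outer dart.** Let `d` be an outer dart from the class `m` to the
class `k` with apex in the class `u`. If `NK = 1` at `e`, then every inner path `Γ` from `e` to the
class `k` contains a point which is joined by majority paths to neighbours of the classes `u`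
and `m`. -/
theorem exists_arm (hd : Pairwise fun i j => Disjoint (O i) (O j)) (hπ : Fib X (cmap X O))
    {σ : CV X O → Bool} {d e : FD X b} {m k u : ZMod 3} (hum : u ≠ m)
    (hsrc : (h.tri258 (cmap X O) hπ).src d = Sum.inl m)
    (htgt : (h.tri258 (cmap X O) hπ).tgt d = Sum.inl k)
    (hapx : (h.tri258 (cmap X O) hπ).apex d = Sum.inl u)
    (hmi : (h.tri258 (cmap X O) hπ).Mi σ d) (hNK : (h.tri258 (cmap X O) hπ).NK σ d e = 1)
    {Γ : Set ℂ} (hΓ : Γ ⊆ Inn X O) (he : tail e ∈ Γ) {y w : ℂ} (hw : w ∈ O k) (hyw : nbr X y w)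
    (hpath : Relation.ReflTransGen (fun a c => nbr X a c ∧ a ∈ Γ ∧ c ∈ Γ) (tail e) y) :
    ∃ x ∈ Γ, colr X O σ x = σ (Sum.inl m) ∧
      (∃ x' w', w' ∈ O u ∧ nbr X x' w' ∧ x' ∈ Inn X O ∧ colr X O σ x' = σ (Sum.inl m) ∧
        Relation.ReflTransGen (Stp X O σ (σ (Sum.inl m))) x' x) ∧
      (∃ x' w', w' ∈ O m ∧ nbr X x' w' ∧ x' ∈ Inn X O ∧ colr X O σ x' = σ (Sum.inl m) ∧
        Relation.ReflTransGen (Stp X O σ (σ (Sum.inl m))) x x') := by
  have := h.finite_Fc
  have : Finite (FD X b) := inferInstance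
  set T := h.tri258 (cmap X O) hπ with hT
  have hTsrc : ∀ q, T.src q = cmap X O (tail q) := fun _ => rfl
  have hTtgt : ∀ q, T.tgt q = cmap X O (head q) := fun q => by
    show cmap X O (tail (h.rv q)) = cmap X O (head q)
    rw [h.tail_rv]
  have hg : T.apex d ≠ T.src d := by
    rw [hapx, hsrc]
    exact fun hh => hum (Sum.inl_injective hh)
  obtain ⟨l, h1, h2, h3, h4, h5⟩ := sep_of_NK T (h.planar258 (cmap X O) hπ) hmi hg hNK
  rw [hsrc] at h2 h4
  -- the path `Γ` as a walk
  have hyΓ : y ∈ Γ := by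
    rcases hpath.cases_tail with hh | ⟨_, _, hh⟩
    · rw [hh]; exact he
    · exact hh.2.2
  have hwalk : ∃ s : List (FD X b), T.Walk (T.src e) (T.tgt d) s ∧ ∀ f ∈ s, tail f ∈ Γ := by
    have key : ∀ z, Relation.ReflTransGen (fun a c => nbr X a c ∧ a ∈ Γ ∧ c ∈ Γ) z y → z ∈ Γ →
        ∃ s : List (FD X b), T.Walk (cmap X O z) (Sum.inl k) s ∧ ∀ f ∈ s, tail f ∈ Γ := by
      intro z hz
      induction hz using Relation.ReflTransGen.head_induction_on with
      | refl =>
        intro _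
        refine ⟨[h.dart hyw], ?_, ?_⟩
        · have h6 := Tri.Walk.single (T := T) (h.dart hyw)
          rw [hTsrc, hTtgt, h.tail_dart, h.head_dart, cmap_of_mem hd hw] at h6
          exact h6
        · intro f hf
          rw [List.mem_singleton] at hf
          rw [hf, h.tail_dart]
          exact hyΓ
      | head hab _ ih =>
        intro _
        obtain ⟨s, hs1, hs2⟩ := ih hab.2.2
        refine ⟨h.dart hab.1 :: s, ?_, ?_⟩
        · refine Tri.Walk.cons' _ ?_ ?_
          · rw [hTsrc, h.tail_dart]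
          · rw [hTtgt, h.head_dart]; exact hs1
        · intro f hf
          rcases List.mem_cons.1 hf with rfl | hf
          · rw [h.tail_dart]; exact hab.2.1
          · exact hs2 f hf
    rw [hTsrc, htgt]
    exact key _ hpath he
  obtain ⟨s, hs1, hs2⟩ := hwalk
  obtain ⟨f, hf, hf'⟩ := h5 s hs1
  have hfΓ := hs2 f hf
  have hfI : tail f ∈ Inn X O := hΓ hfΓ
  have hfr : cmap X O (tail f) = Sum.inr ⟨tail f, hfI⟩ := cmap_of_free hfI.1 hfI.2
  have hff : ∃ f' ∈ l, tail f' = tail f := by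
    rcases hf' with hf' | ⟨f', hf', hh⟩
    · rw [hTsrc, hsrc, hfr] at hf'
      exact absurd hf' (by simp)
    · rw [hTsrc, hTsrc] at hh
      exact ⟨f', hf', cmap_inn_inj hfI hh⟩
  obtain ⟨f', hf'l, hf't⟩ := hff
  -- follow the walk `l` up to `f'`
  have key : ∀ (l : List (FD X b)) (v : CV X O), T.Walk v (Sum.inl m) l →
      (∀ f ∈ l, σ (T.src f) = σ (Sum.inl m)) → (∀ f ∈ l, ∀ j, T.src f ≠ Sum.inl j) →
      ∀ x₀, v = cmap X O x₀ → x₀ ∈ Inn X O → colr X O σ x₀ = σ (Sum.inl m) → ∀ f' ∈ l,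
        Relation.ReflTransGen (Stp X O σ (σ (Sum.inl m))) x₀ (tail f') := by
    intro l
    induction l with
    | nil => intro v _ _ _ x₀ _ _ _ f' hf'; simp at hf'
    | cons g l ih =>
      intro v hv hc hne x₀ hx0 hxI hxc f' hf'
      cases hv with
      | cons _ _ _ hv' =>
        have e0 : tail g = x₀ := cmap_inn_inj hxI (by rw [← hx0]; exact (hTsrc g).symm)
        rcases List.mem_cons.1 hf' with rfl | hf'
        · rw [e0]
        · -- the next vertex is inner
          have hlne : l ≠ [] := by rintro rfl; simp at hf'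
          obtain ⟨g₁, hg₁, hg₁s⟩ := hv'.src_head hlne
          have hne1 := hne g₁ (List.mem_cons_of_mem _ hg₁)
          have hc1 := hc g₁ (List.mem_cons_of_mem _ hg₁)
          rw [hg₁s, hTtgt] at hne1 hc1
          have hgI : head g ∈ Inn X O := by
            by_contra hcon
            obtain ⟨j, -, hj⟩ := cmap_inl_of_not_inn (h.nbr_th g).2.1 hd hcon
            exact hne1 j hj
          have h6 := ih _ hv' (fun f hf => hc f (List.mem_cons_of_mem _ hf))
            (fun f hf => hne f (List.mem_cons_of_mem _ hf)) (head g) (hTtgt g) hgI hc1 f' hf'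
          refine Relation.ReflTransGen.head ⟨?_, ⟨hxI, hxc⟩, hgI, hc1⟩ h6
          rw [← e0]
          exact h.nbr_th g
  have hkm : k ≠ m := by
    rintro rfl
    apply hmi.1
    rw [hsrc, htgt]
  have hku : k ≠ u := by
    rintro rfl
    apply hmi.1
    rw [htgt, ← hmi.2, hapx]
  have hthree : ∀ j, j = m ∨ j = u ∨ j = k := by
    have : ∀ m k u j : ZMod 3, u ≠ m → k ≠ m → k ≠ u → (j = m ∨ j = u ∨ j = k) := by decide
    intro j
    exact this m k u j hum hkm hku
  rcases h1.casesOn' with ⟨h6, _⟩ | ⟨g, l', rfl, h6, h7⟩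
  · rw [h6] at hf'l
    simp at hf'l
  · rw [List.map_cons, List.nodup_cons] at h3
    have hgu : tail g ∈ O u := mem_of_cmap (h.nbr_th g).1 (by rw [← hTsrc, h6, hapx])
    have hne : ∀ f ∈ l', ∀ j, T.src f ≠ Sum.inl j := by
      intro f hf j hj
      rcases hthree j with rfl | rfl | rfl
      · exact h4 f (List.mem_cons_of_mem _ hf) hj
      · apply h3.1
        rw [h6, hapx, ← hj]
        exact List.mem_map_of_mem hf
      · have := h2 f (List.mem_cons_of_mem _ hf)
        rw [hj] at this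
        apply hmi.1
        rw [hsrc, htgt, this]
    have hf'l' : f' ∈ l' := by
      rcases List.mem_cons.1 hf'l with rfl | hh
      · exact absurd hgu ((hf't ▸ hfI).2 u)
      · exact hh
    have hlne : l' ≠ [] := by rintro rfl; simp at hf'l'
    obtain ⟨g₁, hg₁, hg₁s⟩ := h7.src_head hlne
    have hne1 := hne g₁ hg₁
    have hc1 := h2 g₁ (List.mem_cons_of_mem _ hg₁)
    rw [hg₁s, hTtgt] at hne1 hc1
    have hgI : head g ∈ Inn X O := by
      by_contra hcon
      obtain ⟨j, -, hj⟩ := cmap_inl_of_not_inn (h.nbr_th g).2.1 hd hcon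
      exact hne1 j hj
    have h8 := key l' _ (by rw [hsrc] at h7; exact h7)
      (fun f hf => h2 f (List.mem_cons_of_mem _ hf)) hne (head g) (hTtgt g) hgI hc1 f' hf'l'
    have hcf := h2 f' hf'l
    rw [hTsrc, hf't] at hcf
    rw [hf't] at h8
    refine ⟨tail f, hfΓ, hcf, ⟨head g, tail g, hgu, nbr_symm (h.nbr_th g), hgI, hc1, h8⟩, ?_⟩
    -- the second half
    have key2 : ∀ (l : List (FD X b)) (v : CV X O), T.Walk v (Sum.inl m) l →
        (∀ f ∈ l, σ (T.src f) = σ (Sum.inl m)) → (∀ f ∈ l, ∀ j, T.src f ≠ Sum.inl j) →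
        ∀ x₀, v = cmap X O x₀ → x₀ ∈ Inn X O → colr X O σ x₀ = σ (Sum.inl m) →
          ∃ x' w', w' ∈ O m ∧ nbr X x' w' ∧ x' ∈ Inn X O ∧ colr X O σ x' = σ (Sum.inl m) ∧
            Relation.ReflTransGen (Stp X O σ (σ (Sum.inl m))) x₀ x' := by
      intro l
      induction l with
      | nil =>
        intro v hv _ _ x₀ hx0 hxI _
        cases hv with
        | nil => exact absurd (mem_of_cmap hxI.1 hx0.symm) (hxI.2 m)
      | cons g l ih =>
        intro v hv hc hne x₀ hx0 hxI hxc
        cases hv with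
        | cons _ _ _ hv' =>
          have e0 : tail g = x₀ := cmap_inn_inj hxI (by rw [← hx0]; exact (hTsrc g).symm)
          by_cases hgI : head g ∈ Inn X O
          · have hl : l ≠ [] := by
              rintro rfl
              rcases hv'.casesOn' with ⟨_, h9⟩ | ⟨_, _, h9, _⟩
              · exact hgI.2 m (mem_of_cmap hgI.1 (by rw [← hTtgt g, h9]))
              · simp at h9
            obtain ⟨g₁, hg₁, hg₁s⟩ := hv'.src_head hl
            have hc1 := hc g₁ (List.mem_cons_of_mem _ hg₁)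
            rw [hg₁s, hTtgt] at hc1
            obtain ⟨x', w', a1, a2, a3, a4, a5⟩ := ih _ hv'
              (fun f hf => hc f (List.mem_cons_of_mem _ hf))
              (fun f hf => hne f (List.mem_cons_of_mem _ hf)) (head g) (hTtgt g) hgI hc1
            refine ⟨x', w', a1, a2, a3, a4, Relation.ReflTransGen.head ?_ a5⟩
            refine ⟨?_, ⟨hxI, hxc⟩, hgI, hc1⟩
            rw [← e0]
            exact h.nbr_th g
          · obtain ⟨j, hj1, hj2⟩ := cmap_inl_of_not_inn (h.nbr_th g).2.1 hd hgI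
            rcases hv'.casesOn' with ⟨_, h9⟩ | ⟨g₁, l₁, h9, h10, _⟩
            · rw [hTtgt, hj2] at h9
              rw [Sum.inl_injective h9] at hj1
              refine ⟨x₀, head g, hj1, ?_, hxI, hxc, Relation.ReflTransGen.refl⟩
              rw [← e0]
              exact h.nbr_th g
            · exfalso
              refine hne g₁ ?_ j ?_
              · rw [h9]; exact List.mem_cons_of_mem _ List.mem_cons_self
              · rw [h10, hTtgt, hj2]
    obtain ⟨l1, l2, hl12⟩ := List.append_of_mem hf'l'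
    rw [hl12] at h7
    obtain ⟨v, -, hv2⟩ := walk_split h7
    have hsub : ∀ f ∈ f' :: l2, f ∈ l' := by
      intro f hf
      rw [hl12]
      exact List.mem_append_right _ hf
    have hvv : v = cmap X O (tail f) := by
      cases hv2 with
      | cons _ _ _ _ => rw [hTsrc, hf't]
    refine key2 (f' :: l2) v (by rw [hsrc] at hv2; exact hv2)
      (fun f hf => h2 f (List.mem_cons_of_mem _ (hsub f hf))) (fun f hf => hne f (hsub f hf))
      (tail f) hvv hfI hcf

end

end Vale.Agent.P148.R2.H990
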