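import Vale.Agent.P148.Sep
import Vale.Agent.P148.Asm1
import Vale.Agent.P148.R2.H990.X4
import Vale.Agent.P148.R2.H990.Chain

/-!
# P148, module X: continuum crossings from connected sets which cross a strip
-/

open Set Metric Topology Filter
open _root_.P148 (sq side Quad)

namespace Vale.Agent.P148.R2.H990

/-- A connected compact set in the strip `|re| ≤ 1` which goes from `im ≤ -1` to `im ≥ 1` crosses
the square. -/
theorem slab {K : Set ℂ} (hK : IsConnected K) (hKc : IsCompact K) (hre : ∀ z ∈ K, |z.re| ≤ 1)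
    (h1 : ∃ z ∈ K, z.im ≤ -1) (h2 : ∃ z ∈ K, 1 ≤ z.im) :
    ∃ K' ⊆ K ∩ sq, IsConnected K' ∧ (K' ∩ side 0).Nonempty ∧ (K' ∩ side 2).Nonempty := by
  have hcim : ∀ s : Set ℝ, IsClosed s → IsClosed (K ∩ {z : ℂ | z.im ∈ s}) := fun s hs =>
    hKc.isClosed.inter (hs.preimage Complex.continuous_im)
  set F : Set ℂ := K ∩ {z : ℂ | z.im ∈ Icc (-1) 1} with hF
  have hFc : IsCompact F := hKc.of_isClosed_subset (hcim _ isClosed_Icc) inter_subset_left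
  have hFsq : F ⊆ K ∩ sq := fun z hz => ⟨hz.1, hre z hz.1, abs_le.2 hz.2⟩
  by_contra hcon
  obtain ⟨F₁, F₂, hF1, hF2, hdis, hun, ha, ha'⟩ := _root_.P148.sep F {z : ℂ | z.im = -1}
    {z : ℂ | z.im = 1} hFc (isClosed_eq Complex.continuous_im continuous_const)
    (isClosed_eq Complex.continuous_im continuous_const) (by
      rintro ⟨K', hK', hc, ⟨a, haK, ha⟩, ⟨b, hbK, hb⟩⟩
      refine hcon ⟨K', hK'.trans hFsq, hc, ⟨a, haK, ?_⟩, ⟨b, hbK, ?_⟩⟩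
      · exact ⟨hre a (hK' haK).1, ha⟩
      · exact ⟨hre b (hK' hbK).1, hb⟩)
  have hpre := hK.isPreconnected
  rw [isPreconnected_closed_iff] at hpre
  obtain ⟨z, hzK, hz1, hz2⟩ := hpre (F₁ ∪ (K ∩ {z : ℂ | z.im ∈ Iic (-1)}))
    (F₂ ∪ (K ∩ {z : ℂ | z.im ∈ Ici 1})) (hF1.isClosed.union (hcim _ isClosed_Iic))
    (hF2.isClosed.union (hcim _ isClosed_Ici)) (by
      intro z hz
      rcases le_total z.im (-1) with h3 | h3
      · exact Or.inl (Or.inr ⟨hz, h3⟩)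
      · rcases le_total 1 z.im with h4 | h4
        · exact Or.inr (Or.inr ⟨hz, h4⟩)
        · have : z ∈ F₁ ∪ F₂ := by rw [hun]; exact ⟨hz, h3, h4⟩
          rcases this with h5 | h5
          · exact Or.inl (Or.inl h5)
          · exact Or.inr (Or.inl h5)) (by
      obtain ⟨z, hz, h3⟩ := h1
      exact ⟨z, hz, Or.inr ⟨hz, h3⟩⟩) (by
      obtain ⟨z, hz, h3⟩ := h2
      exact ⟨z, hz, Or.inr ⟨hz, h3⟩⟩)
  have hsub1 : F₁ ⊆ F := hun ▸ subset_union_left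
  have hsub2 : F₂ ⊆ F := hun ▸ subset_union_right
  rcases hz1 with h3 | h3
  · rcases hz2 with h4 | h4
    · exact Set.disjoint_left.1 hdis h3 h4
    · have h5 : z ∈ F := hsub1 h3
      have h6 : z.im = 1 := le_antisymm h5.2.2 h4.2
      exact Set.disjoint_left.1 hdis h3 (ha' ⟨h5, h6⟩)
  · rcases hz2 with h4 | h4
    · have h5 : z ∈ F := hsub2 h4
      have h6 : z.im = -1 := le_antisymm h3.2 h5.2.1
      exact Set.disjoint_left.1 hdis (ha ⟨h5, h6⟩) h4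
    · have h5 : z.im ≤ -1 := h3.2
      have h6 : 1 ≤ z.im := h4.2
      linarith

/-- The reflection in the diagonal. -/
noncomputable def dg (z : ℂ) : ℂ := ⟨z.im, z.re⟩

theorem continuous_dg : Continuous dg := by
  have : dg = fun z : ℂ => Complex.equivRealProdCLM.symm (z.im, z.re) := by
    funext z
    apply Complex.ext
    · simp [dg, Complex.equivRealProdCLM_symm_apply]
    · simp [dg, Complex.equivRealProdCLM_symm_apply]
  rw [this]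
  exact Complex.equivRealProdCLM.symm.continuous.comp
    (Complex.continuous_im.prodMk Complex.continuous_re)

theorem dg_dg (z : ℂ) : dg (dg z) = z := rfl

/-- A connected compact set in the strip `|im| ≤ 1` which goes from `re ≤ -1` to `re ≥ 1` crosses
the square. -/
theorem slab' {K : Set ℂ} (hK : IsConnected K) (hKc : IsCompact K) (him : ∀ z ∈ K, |z.im| ≤ 1)
    (h1 : ∃ z ∈ K, z.re ≤ -1) (h2 : ∃ z ∈ K, 1 ≤ z.re) :
    ∃ K' ⊆ K ∩ sq, IsConnected K' ∧ (K' ∩ side 1).Nonempty ∧ (K' ∩ side 3).Nonempty := by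
  obtain ⟨K', hK', hc, ⟨a, haK, ha⟩, ⟨b, hbK, hb⟩⟩ := slab (K := dg '' K)
    (hK.image _ continuous_dg.continuousOn) (hKc.image continuous_dg)
    (by rintro _ ⟨z, hz, rfl⟩; exact him z hz)
    (by obtain ⟨z, hz, h3⟩ := h1; exact ⟨dg z, ⟨z, hz, rfl⟩, h3⟩)
    (by obtain ⟨z, hz, h3⟩ := h2; exact ⟨dg z, ⟨z, hz, rfl⟩, h3⟩)
  refine ⟨dg '' K', ?_, hc.image _ continuous_dg.continuousOn, ⟨dg b, ⟨b, hbK, rfl⟩, ?_⟩,
    ⟨dg a, ⟨a, haK, rfl⟩, ?_⟩⟩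
  · rintro _ ⟨z, hz, rfl⟩
    obtain ⟨⟨w, hw, rfl⟩, h4⟩ := hK' hz
    rw [dg_dg]
    exact ⟨hw, h4.2, h4.1⟩
  · exact ⟨hb.2, hb.1⟩
  · exact ⟨ha.2, ha.1⟩

/-- Continuum crossing from the bottom to the top. -/
theorem cross02 (Q : Quad) {K R : Set ℂ} (hK : IsConnected K) (hKc : IsCompact K) (hR : K ⊆ R)
    (hre : ∀ z ∈ K, |(Q.H.symm z).re| ≤ 1) (h1 : ∃ z ∈ K, (Q.H.symm z).im ≤ -1)
    (h2 : ∃ z ∈ K, 1 ≤ (Q.H.symm z).im) : Q.Cross 0 2 R := by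
  rw [Q.cross_iff]
  obtain ⟨K', hK', hc, h3, h4⟩ := slab (K := Q.H.symm '' K)
    (hK.image _ Q.H.symm.continuous.continuousOn) (hKc.image Q.H.symm.continuous)
    (by rintro _ ⟨z, hz, rfl⟩; exact hre z hz)
    (by obtain ⟨z, hz, h3⟩ := h1; exact ⟨_, ⟨z, hz, rfl⟩, h3⟩)
    (by obtain ⟨z, hz, h3⟩ := h2; exact ⟨_, ⟨z, hz, rfl⟩, h3⟩)
  refine ⟨K', ?_, hc, h3, h4⟩
  intro z hz
  obtain ⟨⟨w, hw, rfl⟩, h5⟩ := hK' hz
  refine ⟨?_, h5⟩
  rw [mem_preimage, Q.H.apply_symm_apply]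
  exact hR hw

/-- Continuum crossing from the left to the right. -/
theorem cross13 (Q : Quad) {K R : Set ℂ} (hK : IsConnected K) (hKc : IsCompact K) (hR : K ⊆ R)
    (him : ∀ z ∈ K, |(Q.H.symm z).im| ≤ 1) (h1 : ∃ z ∈ K, (Q.H.symm z).re ≤ -1)
    (h2 : ∃ z ∈ K, 1 ≤ (Q.H.symm z).re) : Q.Cross 1 3 R := by
  rw [Q.cross_iff]
  obtain ⟨K', hK', hc, h3, h4⟩ := slab' (K := Q.H.symm '' K)
    (hK.image _ Q.H.symm.continuous.continuousOn) (hKc.image Q.H.symm.continuous)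
    (by rintro _ ⟨z, hz, rfl⟩; exact him z hz)
    (by obtain ⟨z, hz, h3⟩ := h1; exact ⟨_, ⟨z, hz, rfl⟩, h3⟩)
    (by obtain ⟨z, hz, h3⟩ := h2; exact ⟨_, ⟨z, hz, rfl⟩, h3⟩)
  refine ⟨K', ?_, hc, h3, h4⟩
  intro z hz
  obtain ⟨⟨w, hw, rfl⟩, h5⟩ := hK' hz
  refine ⟨?_, h5⟩
  rw [mem_preimage, Q.H.apply_symm_apply]
  exact hR hw

end Vale.Agent.P148.R2.H990
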