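import Vale.Agent.P148.R2.H990.X7

/-!
# P148, module X: the observable near a corner is at most the quenched crossing probability plus
the probability of an arm
-/

open Set Metric

namespace Vale.Agent.P148.R2.H990

open Vale.Agent.P148.R2.H592 Vale.Agent.P148.R2 Vale.Agent.P148.R2.H847
open _root_.P148 (sq side Quad)

/-- A path of points of `W` from `A` to `B` in the Delaunay graph of `Y`. -/
def PArm (Y W A B : Set ℂ) : Prop :=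
  ∃ x ∈ A, x ∈ W ∧ ∃ z ∈ B, Relation.ReflTransGen (fun a b => nbr Y a b ∧ a ∈ W ∧ b ∈ W) x z

theorem PArm.mono {Y W W' A B : Set ℂ} (hW : W ⊆ W') (h : PArm Y W A B) : PArm Y W' A B := by
  obtain ⟨x, hx, hxW, z, hz, hxz⟩ := h
  exact ⟨x, hx, hW hxW, z, hz, WPath.mono hW hxz⟩

theorem cross_mono {Q : Quad} {i j : Fin 4} {R R' : Set ℂ} (hR : R ⊆ R') (h : Q.Cross i j R) :
    Q.Cross i j R' := by
  obtain ⟨K, hK, h1⟩ := h
  exact ⟨K, fun z hz => ⟨hR (hK hz).1, (hK hz).2⟩, h1⟩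

section

variable {X Y U : Set ℂ} {ρ : ℝ} {b : ZMod 3 → ℂ} (h : HullTri X b) {O : ZMod 3 → Set ℂ}
  (hf : Fib X (cmap X O))

/-- **The majority path from the far class to the set `κ`.** -/
theorem exists_far (hw : Win X Y U ρ) (hd : Pairwise fun i j => Disjoint (O i) (O j))
    {o q : Fc X b × ZMod 3} {k u : ZMod 3} (ho : OutD h hf o k) (huk : u ≠ k)
    {σ : CV X O → Bool} (hm : (TD h hf).Mi σ o) (hNK : (TD h hf).NK σ o q = 1)
    {κ : Set ℂ} (hκ : IsPreconnected κ) (hκU : κ ⊆ U) {z₁ : ℂ}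
    (hq : tail q ∈ Gf X O) (hqκ : (vcell X (tail q) ∩ κ).Nonempty) (hz₁κ : z₁ ∈ κ)
    (hz₁ : ∀ x ∈ Gf X O, ρ < dist z₁ x)
    (harc : ∀ x ∈ Gf X O, ∀ y, nbr X x y → y ∉ Gf X O → (∃ z ∈ κ, dist z y ≤ ρ) → y ∈ O k) :
    ∃ x ∈ majF h hf o σ, (∃ z ∈ κ, dist z x ≤ ρ) ∧
      ∃ x' ∈ majF h hf o σ, (∃ w ∈ O u, nbr X x' w) ∧ WPath X (majF h hf o σ) x' x := by
  obtain ⟨Γ, hΓ1, hΓ2, hΓ3, y, w, hwk, hyw, hpath⟩ :=
    exists_gamma hw hκ hκU hq hqκ hz₁κ hz₁ harc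
  obtain ⟨h1, i, hi, h2, k', hk, hki, h3⟩ := ho
  obtain ⟨x, hxΓ, hxc, ha, hb⟩ := exists_arm h hd hf (m := i) (k := k) (u := k') hki h2 h1 h3 hm hNK
    hΓ1 hΓ2 hwk hyw hpath
  have hxG : x ∈ Gf X O := hΓ1 hxΓ
  have hmaj : ∀ {v : ℂ}, v ∈ Gf X O → colr X O σ v = σ (Sum.inl i) → v ∈ majF h hf o σ := by
    intro v hv hvc
    refine ⟨hv, ?_⟩
    show colr X O σ v = _
    rw [hvc, h2]
  have hstep : ∀ {a c : ℂ}, Stp X O σ (σ (Sum.inl i)) a c → nbr X a c ∧ a ∈ majF h hf o σ ∧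
      c ∈ majF h hf o σ := fun hac => ⟨hac.1, hmaj hac.2.1.1 hac.2.1.2, hmaj hac.2.2.1 hac.2.2.2⟩
  have hx : x ∈ majF h hf o σ := hmaj hxG hxc
  refine ⟨x, hx, hΓ3 x hxΓ, ?_⟩
  rcases z3_three i k k' u hi hk hki with hu | hu | hu
  · obtain ⟨x', w', a1, a2, a3, a4, a5⟩ := hb
    refine ⟨x', hmaj a3 a4, ⟨w', by rw [hu]; exact a1, a2⟩, ?_⟩
    exact WPath.symm (Relation.ReflTransGen.mono (fun _ _ hac => hstep hac) _ _ a5)
  · exact absurd hu huk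
  · obtain ⟨x', w', a1, a2, a3, a4, a5⟩ := ha
    refine ⟨x', hmaj a3 a4, ⟨w', by rw [hu]; exact a1, a2⟩, ?_⟩
    exact Relation.ReflTransGen.mono (fun _ _ hac => hstep hac) _ _ a5

/-- The geometric hypotheses: a connected set `κ` from the cell of `p₀` to the class `k`; at the
points near `κ` which are not in `A` the condition `F` holds. -/
structure Geo (X Y U : Set ℂ) (ρ : ℝ) (O : ZMod 3 → Set ℂ) (k : ZMod 3) (κ A : Set ℂ) (F : Set ℂ)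
    (p₀ : ℂ) : Prop where
  win : Win X Y U ρ
  disj : Pairwise fun i j => Disjoint (O i) (O j)
  free : ∀ a ∈ Gf X O, closedBall a (3 * ρ) ⊆ U
  conn : IsPreconnected κ
  sub : κ ⊆ U
  start : p₀ ∈ Gf X O
  cell : (vcell X p₀ ∩ κ).Nonempty
  stop : ∃ z₁ ∈ κ, ∀ x ∈ Gf X O, ρ < dist z₁ x
  arc : ∀ x ∈ Gf X O, ∀ y, nbr X x y → y ∉ Gf X O → (∃ z ∈ κ, dist z y ≤ ρ) → y ∈ O k
  split : ∀ x ∈ Gf X O, (∃ z ∈ κ, dist z x ≤ ρ) → x ∈ A ∨ x ∈ F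

/-- **The observable near a corner**, bottom–top crossings. -/
theorem HH_le_cross02 [Fintype (CV X O)] (Q : Quad) {κ A B : Set ℂ} {o q : Fc X b × ZMod 3}
    {k u : ZMod 3} (ho : OutD h hf o k) (huk : u ≠ k)
    (hG : Geo X Y U ρ O k κ A {x | (Q.H.symm x).im ≤ -1} (tail q))
    (hre : ∀ a ∈ Gf X O, ∀ z ∈ closedBall a ρ, |(Q.H.symm z).re| ≤ 1)
    (hfar : ∀ x ∈ Gf X O, ∀ w ∈ O u, nbr X x w → 1 ≤ (Q.H.symm x).im ∧ x ∈ B) :
    ((TD h hf).HH o q).re ≤ qpr (Gf X O) (fun W =>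
      Q.Cross 0 2 (⋃ v ∈ W, vcell Y v) ∨ PArm Y W A B) := by
  refine HH_le_maj h hf ho fun σ hm hNK => ?_
  obtain ⟨z₁, hz₁, hz₁'⟩ := hG.stop
  obtain ⟨x, hx, hxκ, x', hx', ⟨w, hw, hxw⟩, hp⟩ := exists_far h hf hG.win hG.disj ho huk hm hNK
    hG.conn hG.sub hG.start hG.cell hz₁ hz₁' hG.arc
  have hWU : ∀ a ∈ majF h hf o σ, closedBall a (3 * ρ) ⊆ U := fun a ha => hG.free a ha.1
  rcases hG.split x hx.1 hxκ with h1 | h1
  · right
    exact ⟨x, h1, hx, x', (hfar x' hx'.1 w hw hxw).2, hG.win.wpath hWU hp.symm⟩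
  · left
    exact hG.win.cross02 Q (fun a ha => ha.1.1) hWU (fun a ha z hz => hre a ha.1 z hz) hx' hp
      (hfar x' hx'.1 w hw hxw).1 h1

/-- **The observable near a corner**, left–right crossings. -/
theorem HH_le_cross13 [Fintype (CV X O)] (Q : Quad) {κ A B : Set ℂ} {o q : Fc X b × ZMod 3}
    {k u : ZMod 3} (ho : OutD h hf o k) (huk : u ≠ k)
    (hG : Geo X Y U ρ O k κ A {x | 1 ≤ (Q.H.symm x).re} (tail q))
    (him : ∀ a ∈ Gf X O, ∀ z ∈ closedBall a ρ, |(Q.H.symm z).im| ≤ 1)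
    (hfar : ∀ x ∈ Gf X O, ∀ w ∈ O u, nbr X x w → (Q.H.symm x).re ≤ -1 ∧ x ∈ B) :
    ((TD h hf).HH o q).re ≤ qpr (Gf X O) (fun W =>
      Q.Cross 1 3 (⋃ v ∈ W, vcell Y v) ∨ PArm Y W A B) := by
  refine HH_le_maj h hf ho fun σ hm hNK => ?_
  obtain ⟨z₁, hz₁, hz₁'⟩ := hG.stop
  obtain ⟨x, hx, hxκ, x', hx', ⟨w, hw, hxw⟩, hp⟩ := exists_far h hf hG.win hG.disj ho huk hm hNK
    hG.conn hG.sub hG.start hG.cell hz₁ hz₁' hG.arc
  have hWU : ∀ a ∈ majF h hf o σ, closedBall a (3 * ρ) ⊆ U := fun a ha => hG.free a ha.1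
  rcases hG.split x hx.1 hxκ with h1 | h1
  · right
    exact ⟨x, h1, hx, x', (hfar x' hx'.1 w hw hxw).2, hG.win.wpath hWU hp.symm⟩
  · left
    exact hG.win.cross13 Q (fun a ha => ha.1.1) hWU (fun a ha z hz => him a ha.1 z hz) hx' hp
      (hfar x' hx'.1 w hw hxw).1 h1

/-- Passing to a larger set of points. -/
theorem qpr_le_of_mono {N G : Set ℂ} (hN : N.Finite) (hG : G ⊆ N) {E E' : Set ℂ → Prop}
    (hE : ∀ {W W' : Set ℂ}, W ⊆ W' → E W → E W') (hE' : ∀ {W W' : Set ℂ}, W ⊆ W' → E' W → E' W') :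
    qpr G (fun W => E W ∨ E' W) ≤ qpr N E + qpr N E' := by
  rw [← qpr_restrict hN hG (fun W => E W ∨ E' W)]
  refine (qpr_mono hN (Q' := fun W => E W ∨ E' W) fun W _ hW => ?_).trans (qpr_or N E E')
  rcases hW with hW | hW
  · exact Or.inl (hE inter_subset_left hW)
  · exact Or.inr (hE' inter_subset_left hW)

end

end Vale.Agent.P148.R2.H990
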